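import Vale.Agent.P100.Sys.Log

/-!
P100, weighted system: derivatives of the radial weight `|x|^s` and of `x/|x|²`.
-/

open Filter Topology Set

namespace Vale.Agent.P100.Wt

open Vale.Agent.P100.Sys (pd pd_mul)

variable {n : ℕ} {x : EuclideanSpace ℝ (Fin n)}

/-- The weight `|x|^s`. -/
noncomputable def rw' (s : ℝ) (x : EuclideanSpace ℝ (Fin n)) : ℝ := (‖x‖ ^ 2) ^ (s / 2)

/-- The `i`th coordinate of `x/|x|²`. -/
noncomputable def zc (i : Fin n) (x : EuclideanSpace ℝ (Fin n)) : ℝ := x i * (‖x‖ ^ 2)⁻¹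

theorem rw'_eq (s : ℝ) (x : EuclideanSpace ℝ (Fin n)) : rw' s x = ‖x‖ ^ s := by
  rw [rw', ← Real.rpow_natCast ‖x‖ 2, ← Real.rpow_mul (norm_nonneg x)]
  congr 1
  push_cast
  ring

theorem rw'_pos (s : ℝ) (hx : x ≠ 0) : 0 < rw' s x :=
  Real.rpow_pos_of_pos (pow_pos (norm_pos_iff.2 hx) 2) _

theorem rw'_mul (s t : ℝ) (hx : x ≠ 0) : rw' s x * rw' t x = rw' (s + t) x := by
  rw [rw', rw', rw', ← Real.rpow_add (pow_pos (norm_pos_iff.2 hx) 2), add_div]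

theorem contDiffOn_rw' {k : WithTop ℕ∞} (s : ℝ) :
    ContDiffOn ℝ k (rw' (n := n) s) {0}ᶜ :=
  (contDiff_norm_sq ℝ).contDiffOn.rpow_const_of_ne fun x hx =>
    pow_ne_zero 2 (norm_ne_zero_iff.2 hx)

theorem contDiffOn_zc {k : WithTop ℕ∞} (i : Fin n) : ContDiffOn ℝ k (zc i) {0}ᶜ :=
  (EuclideanSpace.proj (𝕜 := ℝ) i).contDiff.contDiffOn.mul
    ((contDiff_norm_sq ℝ).contDiffOn.inv fun x hx => pow_ne_zero 2 (norm_ne_zero_iff.2 hx))

theorem pd_norm_sq (i : Fin n) :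
    pd i (fun y : EuclideanSpace ℝ (Fin n) => ‖y‖ ^ 2) x = 2 * x i := by
  simp [pd, (hasStrictFDerivAt_norm_sq x).hasFDerivAt.fderiv, EuclideanSpace.inner_single_right]

theorem pd_rw' (s : ℝ) (hx : x ≠ 0) (i : Fin n) : pd i (rw' s) x = s * rw' s x * zc i x := by
  have h0 : ‖x‖ ^ 2 ≠ 0 := pow_ne_zero 2 (norm_ne_zero_iff.2 hx)
  have h := (hasStrictFDerivAt_norm_sq x).hasFDerivAt.rpow_const (p := s / 2) (Or.inl h0)
  show fderiv ℝ (fun y : EuclideanSpace ℝ (Fin n) => (‖y‖ ^ 2) ^ (s / 2)) x _ = _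
  rw [h.fderiv, Real.rpow_sub_one h0]
  simp [rw', zc, EuclideanSpace.inner_single_right]
  field_simp

theorem pd_zc (hx : x ≠ 0) (i : Fin n) :
    pd i (zc i) x = (‖x‖ ^ 2)⁻¹ - 2 * (zc i x * zc i x) := by
  have h0 : ‖x‖ ^ 2 ≠ 0 := pow_ne_zero 2 (norm_ne_zero_iff.2 hx)
  have hp := (EuclideanSpace.proj (𝕜 := ℝ) i).hasFDerivAt (x := x)
  have hi := (hasDerivAt_inv h0).comp_hasFDerivAt x (hasStrictFDerivAt_norm_sq x).hasFDerivAt
  show fderiv ℝ (fun y : EuclideanSpace ℝ (Fin n) => y i * (‖y‖ ^ 2)⁻¹) x _ = _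
  have h := hp.mul hi
  rw [show fderiv ℝ (fun y : EuclideanSpace ℝ (Fin n) => y i * (‖y‖ ^ 2)⁻¹) x = _ from h.fderiv]
  simp [zc, EuclideanSpace.inner_single_right]
  field_simp
  ring

theorem sum_zc_sq (hx : x ≠ 0) : ∑ i, zc i x * zc i x = (‖x‖ ^ 2)⁻¹ := by
  have h0 : ‖x‖ ^ 2 ≠ 0 := pow_ne_zero 2 (norm_ne_zero_iff.2 hx)
  have e : ∑ i, x i * x i = ‖x‖ ^ 2 := by
    rw [EuclideanSpace.norm_sq_eq]
    simp [pow_two]
  calc ∑ i, zc i x * zc i x = (∑ i, x i * x i) * ((‖x‖ ^ 2)⁻¹ * (‖x‖ ^ 2)⁻¹) := by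
        rw [Finset.sum_mul]; exact Finset.sum_congr rfl fun i _ => by simp only [zc]; ring
    _ = _ := by rw [e]; field_simp

/-- The divergence of `x/|x|²`. -/
theorem sum_pd_zc (hx : x ≠ 0) :
    ∑ i, pd i (zc i) x = ((n : ℝ) - 2) * ∑ i, zc i x * zc i x := by
  simp only [pd_zc hx, Finset.sum_sub_distrib, Finset.sum_const, Finset.card_univ, Fintype.card_fin,
    nsmul_eq_mul, ← Finset.mul_sum, sum_zc_sq hx]
  ring

end Vale.Agent.P100.Wt
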