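import Mathlib

/-!
P100, weighted system: the quartic of the integral identity as a function of scalar invariants of
the jet, and coercivity at a real effective dimension `N`.
-/

namespace Vale.Agent.P100.Wt

/-- The quartic in the invariants `F = Γ₂`, `Q = D²f (Df, Df)` (weighted), `X = |Df|²`,
`Y = |Dg|²`, `Z = Df · Dg`, `P₁`, `P₂`. -/
def jetS (p q μ c d₁ d₂ d₃ d₄ F Q X Y Z P₁ P₂ : ℝ) : ℝ :=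
  F + (2 - μ) * Q + P₁ * (X - p * Z) + c * (2 * Q + X * (X + P₁) - μ * X ^ 2) +
    d₁ * (P₁ * (X - p * Z) + P₁ * (X + P₁) - μ * P₁ * X) +
    d₂ * (P₁ * (Z - p * Y) + P₁ * (Y + P₂) - μ * P₁ * Z) +
    d₃ * (P₂ * (Z - q * X) + P₂ * (X + P₁) - μ * P₂ * X) +
    d₄ * (P₂ * (Y - q * Z) + P₂ * (Y + P₂) - μ * P₂ * Z)

/-- The quantity that the certificate must dominate. -/
def bulkS (F X Y P₁ P₂ : ℝ) : ℝ := F + X ^ 2 + P₁ ^ 2 + P₂ ^ 2 + (P₁ + P₂) * Y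

/-- Coercivity on all invariants obeying the curvature-dimension inequality of dimension `N`. -/
def CoerciveR (N p q μ c d₁ d₂ d₃ d₄ : ℝ) : Prop :=
  ∃ γ > 0, ∀ F Q X Y Z P₁ P₂ : ℝ, 0 ≤ X → 0 ≤ Y → Z ^ 2 ≤ X * Y → 0 ≤ P₁ → 0 ≤ P₂ →
    (∀ k : ℝ, (X + P₁ + k / 2 * X) ^ 2 / N - k ^ 2 / 4 * X ^ 2 ≤ F + k * Q) →
      γ * bulkS F X Y P₁ P₂ ≤ jetS p q μ c d₁ d₂ d₃ d₄ F Q X Y Z P₁ P₂

/-- Coercivity, on the diagonal jets only when `E` holds. -/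
def CoerciveIf (E : Prop) (N p q μ c d₁ d₂ d₃ d₄ : ℝ) : Prop :=
  ∃ γ > 0, ∀ F Q X Y Z P₁ P₂ : ℝ, (E → Y = X ∧ Z = X ∧ P₂ = P₁) →
    0 ≤ X → 0 ≤ Y → Z ^ 2 ≤ X * Y → 0 ≤ P₁ → 0 ≤ P₂ →
    (∀ k : ℝ, (X + P₁ + k / 2 * X) ^ 2 / N - k ^ 2 / 4 * X ^ 2 ≤ F + k * Q) →
      γ * bulkS F X Y P₁ P₂ ≤ jetS p q μ c d₁ d₂ d₃ d₄ F Q X Y Z P₁ P₂

theorem CoerciveR.toIf {E : Prop} {N p q μ c d₁ d₂ d₃ d₄ : ℝ}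
    (h : CoerciveR N p q μ c d₁ d₂ d₃ d₄) : CoerciveIf E N p q μ c d₁ d₂ d₃ d₄ :=
  let ⟨γ, hγ, h⟩ := h
  ⟨γ, hγ, fun F Q X Y Z P₁ P₂ _ => h F Q X Y Z P₁ P₂⟩

end Vale.Agent.P100.Wt
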