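import Vale.Agent.P100.Wt.Split
import Vale.Agent.P100.Wt.Jet

/-!
P100, weighted system: the metric `|x|^A dx²` with `-2 < A ≤ 0` satisfies the curvature-dimension
inequality with `N = 2 (n + A) / (2 + A)`, in the coordinates of `ℝⁿ`.
-/

namespace Vale.Agent.P100.Wt

open Vale.Agent.P100.Sys (ip fr qf)

variable {n : ℕ}

/-- `Γ₂(f)` in the coordinates, with `H = D²f`, `a = Df`, `z = x/|x|²`. -/
noncomputable def gam (A : ℝ) (H : Fin n → Fin n → ℝ) (a z : Fin n → ℝ) : ℝ :=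
  fr H - 2 * A * (∑ i, z i * ∑ j, H i j * a j) + A * (∑ i, H i i) * ip z a -
    A / 2 * ((n : ℝ) - 2 - A) * ip z z * ip a a

/-- The weighted `D²f (Df, Df)`. -/
noncomputable def qfw (A : ℝ) (H : Fin n → Fin n → ℝ) (a z : Fin n → ℝ) : ℝ :=
  qf H a - A / 2 * ip z a * ip a a

/-- The Hessian of the weighted metric, up to its trace part. -/
noncomputable def hw (A : ℝ) (H : Fin n → Fin n → ℝ) (a z : Fin n → ℝ) (i j : Fin n) : ℝ :=
  H i j - A / 2 * (z i * a j + a i * z j)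

theorem ip_comm (a b : Fin n → ℝ) : ip a b = ip b a :=
  Finset.sum_congr rfl fun _ _ => mul_comm _ _

theorem ip_sq_le (a b : Fin n → ℝ) : ip a b ^ 2 ≤ ip a a * ip b b := by
  simpa [ip, pow_two] using Finset.sum_mul_sq_le_sq_mul_sq Finset.univ a b

theorem hw_trace (A : ℝ) (H : Fin n → Fin n → ℝ) (a z : Fin n → ℝ) :
    ∑ i, hw A H a z i i = (∑ i, H i i) - A * ip z a := by
  simp only [hw, ip, Finset.mul_sum, ← Finset.sum_sub_distrib]
  exact Finset.sum_congr rfl fun i _ => by ring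

theorem qf_hw (A : ℝ) (H : Fin n → Fin n → ℝ) (a z : Fin n → ℝ) :
    qf H a = qf (hw A H a z) a + A * ip z a * ip a a := by
  have e : A * ip z a * ip a a =
      A / 2 * ((∑ i, z i * a i) * ∑ j, a j * a j) +
        A / 2 * ((∑ i, a i * a i) * ∑ j, z j * a j) := by
    simp only [ip]; ring
  rw [e, Finset.sum_mul_sum, Finset.sum_mul_sum]
  simp only [qf, hw, Finset.mul_sum, ← Finset.sum_add_distrib]
  exact Finset.sum_congr rfl fun i _ => Finset.sum_congr rfl fun j _ => by ring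

theorem gam_eq (A : ℝ) (H : Fin n → Fin n → ℝ) (hH : ∀ i j, H i j = H j i) (a z : Fin n → ℝ) :
    gam A H a z = fr (hw A H a z) - A ^ 2 / 2 * ip z a ^ 2 + A * (∑ i, H i i) * ip z a -
      A * ((n : ℝ) - 2) / 2 * (ip z z * ip a a) := by
  have hsw : ∑ i, ∑ j, H i j * (a i * z j) = ∑ i, z i * ∑ j, H i j * a j := by
    rw [Finset.sum_comm]
    simp only [Finset.mul_sum]
    exact Finset.sum_congr rfl fun i _ => Finset.sum_congr rfl fun j _ => by rw [hH j i]; ring
  have e : fr (hw A H a z) = fr H - A * (∑ i, z i * ∑ j, H i j * a j) -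
      A * (∑ i, ∑ j, H i j * (a i * z j)) +
      A ^ 2 / 4 * ((∑ i, z i * z i) * ∑ j, a j * a j) +
      A ^ 2 / 4 * ((∑ i, a i * a i) * ∑ j, z j * z j) +
      A ^ 2 / 2 * ((∑ i, z i * a i) * ∑ j, z j * a j) := by
    rw [Finset.sum_mul_sum, Finset.sum_mul_sum, Finset.sum_mul_sum]
    simp only [fr, hw, Finset.mul_sum, ← Finset.sum_add_distrib, ← Finset.sum_sub_distrib]
    exact Finset.sum_congr rfl fun i _ => Finset.sum_congr rfl fun j _ => by ring
  rw [e, hsw, gam]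
  simp only [ip]
  ring

/-- The curvature-dimension inequality. -/
theorem gam_cd {A : ℝ} (hn : 2 ≤ n) (hA : -2 < A) (hA0 : A ≤ 0) (H : Fin n → Fin n → ℝ)
    (hH : ∀ i j, H i j = H j i) (a z : Fin n → ℝ) (k : ℝ) :
    (∑ i, H i i + k / 2 * ip a a) ^ 2 / (2 * ((n : ℝ) + A) / (2 + A)) - k ^ 2 / 4 * ip a a ^ 2 ≤
      gam A H a z + k * qfw A H a z := by
  have ht := Vale.Agent.P100.Wt.Split.trace_bound (hw A H a z) a k
  rw [hw_trace] at ht
  rw [gam_eq A H hH a z, qfw, qf_hw A H a z]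
  have hn2 : (2 : ℝ) ≤ n := by exact_mod_cast hn
  have hz := mul_le_mul_of_nonneg_left (ip_sq_le z a)
    (show 0 ≤ -A * ((n : ℝ) - 2) / 2 by nlinarith)
  set w := ip z a
  set X := ip a a
  set u := ∑ i, H i i
  set n' : ℝ := (n : ℝ)
  have hnA : 0 < n' + A := by linarith
  have key : (u + k / 2 * X) ^ 2 / (2 * (n' + A) / (2 + A)) ≤
      (u - A * w + k / 2 * X) ^ 2 / n' + A * (u + k / 2 * X) * w -
        (A ^ 2 / 2 + A * (n' - 2) / 2) * w ^ 2 := by
    set v := u + k / 2 * X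
    rw [show u - A * w + k / 2 * X = v - A * w by ring]
    have e : (v - A * w) ^ 2 / n' + A * v * w - (A ^ 2 / 2 + A * (n' - 2) / 2) * w ^ 2 -
        v ^ 2 / (2 * (n' + A) / (2 + A)) =
        -A * (n' - 2) / (2 * n' * (n' + A)) * (v - (n' + A) * w) ^ 2 := by
      field_simp
      ring
    have : 0 ≤ -A * (n' - 2) / (2 * n' * (n' + A)) * (v - (n' + A) * w) ^ 2 :=
      mul_nonneg (div_nonneg (mul_nonneg (by linarith) (by linarith)) (by positivity))
        (sq_nonneg _)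
    linarith
  linarith

/-- The weighted Hessian is controlled by `Γ₂` and the Laplacian. -/
theorem gam_slack {A : ℝ} (hn : 5 ≤ n) (hA : -2 < A) (hA0 : A ≤ 0) (H : Fin n → Fin n → ℝ)
    (hH : ∀ i j, H i j = H j i) (a z : Fin n → ℝ) :
    (fr (hw A H a z) + A ^ 2 * ip z a ^ 2) / 10 ≤ gam A H a z + 2 * (∑ i, H i i) ^ 2 := by
  have ht := Vale.Agent.P100.Wt.Split.trace_bound (hw A H a z) a 0
  rw [hw_trace] at ht
  rw [gam_eq A H hH a z]
  have hn2 : (5 : ℝ) ≤ n := by exact_mod_cast hn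
  have hz := mul_le_mul_of_nonneg_left (ip_sq_le z a)
    (show 0 ≤ -A * ((n : ℝ) - 2) / 2 by nlinarith)
  set w := ip z a
  set u := ∑ i, H i i
  set n' : ℝ := (n : ℝ)
  simp only [zero_div, zero_mul, add_zero, zero_pow (two_ne_zero), sub_zero] at ht
  set S := (u - A * w) ^ 2 / n' with hS
  set G := fr (hw A H a z)
  have eS : S * n' = (u - A * w) ^ 2 := div_mul_cancel₀ _ (by linarith)
  have hS0 : 0 ≤ S := by positivity
  have key : 0 ≤ 9 / 10 * (S * n') + n' * (A * u * w - (3 * A ^ 2 / 5) * w ^ 2 -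
      A * (n' - 2) / 2 * w ^ 2 + 2 * u ^ 2) := by
    rw [eS]
    have h1 : 0 ≤ (n' - 5) * -A * w ^ 2 :=
      mul_nonneg (mul_nonneg (by linarith) (by linarith)) (sq_nonneg w)
    have h2 : 0 ≤ -A * (2 + A) * w ^ 2 :=
      mul_nonneg (mul_nonneg (by linarith) (by linarith)) (sq_nonneg w)
    have h3 : 0 ≤ n' * ((n' - 5) * -A * w ^ 2) := mul_nonneg (by linarith) h1
    have h4 : 0 ≤ n' * (-A * (2 + A) * w ^ 2) := mul_nonneg (by linarith) h2
    have h5 : 0 ≤ n' * (2 * u + A * w / 4) ^ 2 := by positivity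
    have h6 : 0 ≤ n' * (A * w) ^ 2 := by positivity
    have h7 : 0 ≤ n' * (-A * w ^ 2) := mul_nonneg (by linarith) (mul_nonneg (by linarith) (sq_nonneg w))
    nlinarith
  by_contra hcon
  rw [not_le] at hcon
  nlinarith [mul_lt_mul_of_pos_right hcon (show 0 < n' by linarith),
    mul_le_mul_of_nonneg_right ht (show 0 ≤ n' by linarith),
    mul_le_mul_of_nonneg_right hz (show 0 ≤ n' by linarith)]

end Vale.Agent.P100.Wt
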