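import Vale.Agent.P100.Sys.Ineq
import Vale.Agent.P100.Wt.Gamma

/-!
P100, weighted system: the boundary term of the identity is absorbed by the bulk.
-/

namespace Vale.Agent.P100.Wt

open Vale.Agent.P100.Sys (ip fr qf lin_bound bil_bound sq_le_ip ip_self_nonneg)

variable {n : ℕ}

/-- `H a - A/2 |a|² z` in terms of the weighted Hessian. -/
theorem hess_vec (A : ℝ) (H : Fin n → Fin n → ℝ) (a z : Fin n → ℝ) (i : Fin n) :
    (∑ j, H i j * a j) - A / 2 * ip a a * z i =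
      (∑ j, hw A H a z i j * a j) + A / 2 * ip z a * a i := by
  have e : ∀ j, H i j * a j = hw A H a z i j * a j +
      (A / 2 * z i * (a j * a j) + A / 2 * a i * (z j * a j)) := fun j => by simp only [hw]; ring
  simp only [e, Finset.sum_add_distrib, ← Finset.mul_sum, ip]
  ring

theorem gam_nonneg {A : ℝ} (hn : 2 ≤ n) (hA : -2 < A) (hA0 : A ≤ 0) (H : Fin n → Fin n → ℝ)
    (hH : ∀ i j, H i j = H j i) (a z : Fin n → ℝ) : 0 ≤ gam A H a z := by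
  have h := gam_cd hn hA hA0 H hH a z 0
  simp only [zero_div, zero_mul, add_zero, zero_pow (two_ne_zero), sub_zero] at h
  refine le_trans (div_nonneg (sq_nonneg _) ?_) h
  have : (2 : ℝ) ≤ n := by exact_mod_cast hn
  exact div_nonneg (by linarith) (by linarith)

/-- One component of the boundary term. -/
theorem comp_bound {δ S : ℝ} (hδ : 0 < δ) (hr a : Fin n → ℝ) (k c d₁ d₂ d₃ d₄ s ai bi di y X P₁ P₂ : ℝ)
    (hX : 0 ≤ X) (hP₁ : 0 ≤ P₁) (hP₂ : 0 ≤ P₂) (h1 : ∀ j, hr j ^ 2 + a j ^ 4 ≤ S)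
    (h0 : s ^ 2 + ai ^ 4 ≤ S) (h2 : X * ai ^ 2 + X ^ 2 ≤ S) (h3 : P₁ * ai ^ 2 + P₁ ^ 2 ≤ S)
    (h4 : P₂ * ai ^ 2 + P₂ ^ 2 ≤ S) (h5 : P₁ * bi ^ 2 + P₁ ^ 2 ≤ S)
    (h6 : P₂ * bi ^ 2 + P₂ ^ 2 ≤ S) :
    -((n + 6 : ℝ) * S * (δ * y ^ 4) + ((n : ℝ) * k ^ 4 + (k / 2) ^ 4 + (k * c) ^ 4 + (k * d₁) ^ 4 +
        (k * d₂) ^ 4 + (k * d₃) ^ 4 + (k * d₄) ^ 4) / (64 * δ ^ 3) * di ^ 4) ≤
      k * di * y ^ 3 * ((∑ j, hr j * a j) + 1 / 2 * (s * ai) + c * (X * ai) + d₁ * (P₁ * ai) +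
        d₃ * (P₂ * ai) + d₂ * (P₁ * bi) + d₄ * (P₂ * bi)) := by
  have hy : (0 : ℝ) ≤ δ * y ^ 4 := by positivity
  have t1 : ∀ j, -(S * (δ * y ^ 4) + k ^ 4 * di ^ 4 / (64 * δ ^ 3)) ≤
      k * di * y ^ 3 * (hr j * a j) := fun j => by
    have h := bil_bound hδ (k * di) y (hr j) (a j)
    have h' := mul_le_mul_of_nonneg_left (h1 j) hy
    rw [mul_pow] at h
    linarith
  have t1s := Finset.sum_le_sum (s := Finset.univ) fun j _ => t1 j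
  rw [Finset.sum_const, Finset.card_univ, Fintype.card_fin, nsmul_eq_mul, ← Finset.mul_sum] at t1s
  have t0 : -(S * (δ * y ^ 4) + (k / 2) ^ 4 * di ^ 4 / (64 * δ ^ 3)) ≤
      k * di * y ^ 3 * (1 / 2 * (s * ai)) := by
    have h := bil_bound hδ (k / 2 * di) y s ai
    have h' := mul_le_mul_of_nonneg_left h0 hy
    rw [mul_pow (k / 2) di] at h
    linarith
  have term : ∀ r P v, 0 ≤ P → P * v ^ 2 + P ^ 2 ≤ S →
      -(S * (δ * y ^ 4) + (k * r) ^ 4 * di ^ 4 / (64 * δ ^ 3)) ≤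
        k * di * y ^ 3 * (r * (P * v)) := fun r P v hP hb => by
    have h := lin_bound hδ hP (k * r * di) y v
    have h' := mul_le_mul_of_nonneg_left hb hy
    rw [mul_pow (k * r) di] at h
    linarith
  have u1 := term c _ ai hX h2
  have u2 := term d₁ _ ai hP₁ h3
  have u3 := term d₃ _ ai hP₂ h4
  have u4 := term d₂ _ bi hP₁ h5
  have u5 := term d₄ _ bi hP₂ h6
  have tot := add_le_add (add_le_add (add_le_add (add_le_add (add_le_add (add_le_add t1s t0) u1)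
    u2) u3) u4) u5
  refine le_trans (le_of_eq ?_) (tot.trans_eq ?_) <;> ring

theorem bdry_bound (hn : 5 ≤ n) {A : ℝ} (hA : -2 < A) (hA0 : A ≤ 0) (k c d₁ d₂ d₃ d₄ : ℝ)
    {ε : ℝ} (hε : 0 < ε) :
    ∃ C : ℝ, 0 ≤ C ∧ ∀ (H : Fin n → Fin n → ℝ) (a b z d : Fin n → ℝ) (P₁ P₂ y : ℝ),
      (∀ i j, H i j = H j i) → ∑ i, H i i = ip a a + P₁ → 0 ≤ P₁ → 0 ≤ P₂ →
      -(ε * y ^ 4 * bulkS (gam A H a z) (ip a a) (ip b b) P₁ P₂ + C * ∑ i, d i ^ 4) ≤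
        ∑ i, k * d i * y ^ 3 * ((∑ j, H i j * a j) + (ip a a * (c * a i - A / 2 * z i) +
          (d₁ * P₁ + d₃ * P₂) * a i + (d₂ * P₁ + d₄ * P₂) * b i)) := by
  set δ : ℝ := ε / (50 * ((n : ℝ) * (n + 6)) + 1) with hδdef
  have hden : (0 : ℝ) < 50 * ((n : ℝ) * (n + 6)) + 1 := by positivity
  have hδ : 0 < δ := div_pos hε hden
  set C : ℝ := ((n : ℝ) * k ^ 4 + (k / 2) ^ 4 + (k * c) ^ 4 + (k * d₁) ^ 4 + (k * d₂) ^ 4 +
    (k * d₃) ^ 4 + (k * d₄) ^ 4) / (64 * δ ^ 3) with hC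
  refine ⟨C, by positivity, fun H a b z d P₁ P₂ y hH htr hP₁ hP₂ => ?_⟩
  have hgam := gam_nonneg (by omega) hA hA0 H hH a z
  have hsl := gam_slack hn hA hA0 H hH a z
  rw [htr] at hsl
  set S := bulkS (gam A H a z) (ip a a) (ip b b) P₁ P₂ with hS
  have hX := ip_self_nonneg a
  have hY := ip_self_nonneg b
  have hS0 : 0 ≤ S := by simp only [hS, bulkS]; positivity
  set G := fr (hw A H a z) with hG
  have hG0 : 0 ≤ G := Finset.sum_nonneg fun i _ => Finset.sum_nonneg fun j _ => sq_nonneg _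
  have hG1 : G + A ^ 2 * ip z a ^ 2 ≤ 40 * S := by
    simp only [hS, bulkS]
    nlinarith [sq_nonneg (ip a a - P₁), sq_nonneg P₁, sq_nonneg P₂, sq_nonneg (ip a a),
      mul_nonneg (add_nonneg hP₁ hP₂) hY]
  have hX2 : ip a a ^ 2 ≤ S := by
    simp only [hS, bulkS]
    nlinarith [sq_nonneg P₁, sq_nonneg P₂, mul_nonneg (add_nonneg hP₁ hP₂) hY]
  have ha4 : ∀ j, a j ^ 4 ≤ S := fun j => by
    have := pow_le_pow_left₀ (sq_nonneg (a j)) (sq_le_ip a j) 2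
    linarith [this, show (a j ^ 2) ^ 2 = a j ^ 4 by ring]
  have hs1 : ∀ i j, hw A H a z i j ^ 2 + a j ^ 4 ≤ 50 * S := fun i j => by
    have h1 : hw A H a z i j ^ 2 ≤ G :=
      (Finset.single_le_sum (f := fun j => hw A H a z i j ^ 2) (fun _ _ => sq_nonneg _)
        (Finset.mem_univ j)).trans
        (Finset.single_le_sum (f := fun i => ∑ j, hw A H a z i j ^ 2)
          (fun _ _ => Finset.sum_nonneg fun _ _ => sq_nonneg _) (Finset.mem_univ i))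
    linarith [ha4 j, mul_nonneg (sq_nonneg A) (sq_nonneg (ip z a))]
  have hs0 : ∀ i, (A * ip z a) ^ 2 + a i ^ 4 ≤ 50 * S := fun i => by
    rw [mul_pow]; linarith [ha4 i]
  have hsa : ∀ P, 0 ≤ P → P ^ 2 ≤ ip a a ^ 2 + P₁ ^ 2 + P₂ ^ 2 → ∀ i,
      P * a i ^ 2 + P ^ 2 ≤ 50 * S := fun P hP hP2 i => by
    have h1 : P * a i ^ 2 ≤ P * ip a a := mul_le_mul_of_nonneg_left (sq_le_ip a i) hP
    simp only [hS, bulkS]
    nlinarith [sq_nonneg (P - ip a a), sq_nonneg P₁, sq_nonneg P₂,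
      mul_nonneg (add_nonneg hP₁ hP₂) hY]
  have hs2 : ∀ i, ip a a * a i ^ 2 + ip a a ^ 2 ≤ 50 * S :=
    hsa _ hX (by nlinarith [sq_nonneg P₁, sq_nonneg P₂])
  have hs3 : ∀ i, P₁ * a i ^ 2 + P₁ ^ 2 ≤ 50 * S :=
    hsa _ hP₁ (by nlinarith [sq_nonneg (ip a a), sq_nonneg P₂])
  have hs4 : ∀ i, P₂ * a i ^ 2 + P₂ ^ 2 ≤ 50 * S :=
    hsa _ hP₂ (by nlinarith [sq_nonneg (ip a a), sq_nonneg P₁])
  have hsb : ∀ P, 0 ≤ P → P * ip b b ≤ (P₁ + P₂) * ip b b → P ^ 2 ≤ P₁ ^ 2 + P₂ ^ 2 → ∀ i,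
      P * b i ^ 2 + P ^ 2 ≤ 50 * S := fun P hP h1 h2 i => by
    have h3 : P * b i ^ 2 ≤ P * ip b b := mul_le_mul_of_nonneg_left (sq_le_ip b i) hP
    simp only [hS, bulkS]
    nlinarith [sq_nonneg (ip a a)]
  have hs5 := hsb _ hP₁ (by nlinarith [mul_nonneg hP₂ hY]) (by nlinarith [sq_nonneg P₂])
  have hs6 := hsb _ hP₂ (by nlinarith [mul_nonneg hP₁ hY]) (by nlinarith [sq_nonneg P₁])
  have hy : (0 : ℝ) ≤ δ * y ^ 4 := by positivity
  have main : ∀ i, -((n + 6 : ℝ) * (50 * S) * (δ * y ^ 4) + C * d i ^ 4) ≤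
      k * d i * y ^ 3 * ((∑ j, H i j * a j) + (ip a a * (c * a i - A / 2 * z i) +
          (d₁ * P₁ + d₃ * P₂) * a i + (d₂ * P₁ + d₄ * P₂) * b i)) := by
    intro i
    have e0 : (∑ j, H i j * a j) + (ip a a * (c * a i - A / 2 * z i) +
        (d₁ * P₁ + d₃ * P₂) * a i + (d₂ * P₁ + d₄ * P₂) * b i) =
        (∑ j, hw A H a z i j * a j) + 1 / 2 * ((A * ip z a) * a i) + c * (ip a a * a i) +
          d₁ * (P₁ * a i) + d₃ * (P₂ * a i) + d₂ * (P₁ * b i) + d₄ * (P₂ * b i) := by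
      linear_combination hess_vec A H a z i
    rw [e0, hC]
    exact comp_bound hδ (hw A H a z i) a k c d₁ d₂ d₃ d₄ (A * ip z a) (a i) (b i) (d i) y (ip a a)
      P₁ P₂ hX hP₁ hP₂ (hs1 i) (hs0 i) (hs2 i) (hs3 i) (hs4 i) (hs5 i) (hs6 i)
  have tot := Finset.sum_le_sum (s := Finset.univ) fun i _ => main i
  refine le_trans ?_ tot
  rw [Finset.sum_neg_distrib, Finset.sum_add_distrib, ← Finset.mul_sum, Finset.sum_const,
    Finset.card_univ, Fintype.card_fin, nsmul_eq_mul]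
  have hle : (n : ℝ) * (n + 6) * 50 * δ ≤ ε := by
    rw [hδdef, ← mul_div_assoc, div_le_iff₀ hden]
    linarith [mul_nonneg hε.le (show (0 : ℝ) ≤ 1 by norm_num)]
  have := mul_le_mul_of_nonneg_right hle (show 0 ≤ y ^ 4 * S by positivity)
  rw [← Finset.mul_sum]
  linarith

end Vale.Agent.P100.Wt
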