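import Vale.Agent.P100.Wt.Identity
import Vale.Agent.P100.Wt.Bdry
import Vale.Agent.P100.Sys.Cutoff

/-!
P100, analytic half, weighted: a coercive quartic excludes positive solutions of
`-Δu = |x|^A v^p`, `-Δv = |x|^A u^q` with `-2 < A ≤ 0` that are `C²` off the origin and continuous.
-/

open MeasureTheory Filter Topology Set Metric
open scoped Laplacian

namespace Vale.Agent.P100.Wt

open Vale.Agent.P100.Sys (pd lap cut ann contDiff_ann ann_support ann_nonneg ann_le_one pd_ann_pow_four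
  fderiv_cut_eq_zero cut_eq_one integral_fderiv_cut integrable_of_support pd_symm young power_le
  ip ip_self_nonneg laplacian_eq_lap lap_neg_log ann_eq_one)

variable {n : ℕ}

theorem fderiv_cut_eq_zero_of_lt {R : ℝ} (hR : 0 < R) {x : EuclideanSpace ℝ (Fin n)}
    (hx : ‖x‖ < R) : fderiv ℝ (cut n R) x = 0 := by
  have h : cut n R =ᶠ[𝓝 x] fun _ => (1 : ℝ) :=
    ((continuous_norm.tendsto x).eventually (eventually_lt_nhds hx)).mono
      fun y hy => cut_eq_one hR hy.le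
  rw [h.fderiv_eq]
  simp

/-- On the support of the gradient of the outer cutoff the weights are powers of the radius. -/
theorem outer_weight {A σ R : ℝ} (hA0 : A ≤ 0) (hσ : 0 < σ) (hR : 0 < R)
    {x : EuclideanSpace ℝ (Fin n)} (hx : x ≠ 0) :
    rw' A x * (‖fderiv ℝ (cut n R) x‖ * rw' (-A / 2) x) ^ σ ≤
      R ^ A * (2 * R) ^ (-A / 2 * σ) * ‖fderiv ℝ (cut n R) x‖ ^ σ := by
  by_cases h1 : ‖x‖ < R
  · rw [fderiv_cut_eq_zero_of_lt hR h1]; simp [Real.zero_rpow hσ.ne']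
  by_cases h2 : 2 * R < ‖x‖
  · rw [fderiv_cut_eq_zero hR h2]; simp [Real.zero_rpow hσ.ne']
  rw [not_lt] at h1 h2
  have hn : 0 < ‖x‖ := norm_pos_iff.2 hx
  rw [rw'_eq, rw'_eq, Real.mul_rpow (norm_nonneg _) (by positivity), ← Real.rpow_mul (norm_nonneg x)]
  calc ‖x‖ ^ A * (‖fderiv ℝ (cut n R) x‖ ^ σ * ‖x‖ ^ (-A / 2 * σ))
      ≤ R ^ A * (‖fderiv ℝ (cut n R) x‖ ^ σ * (2 * R) ^ (-A / 2 * σ)) :=
        mul_le_mul (Real.rpow_le_rpow_of_nonpos hR h1 hA0)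
          (mul_le_mul_of_nonneg_left (Real.rpow_le_rpow hn.le h2
            (mul_nonneg (by linarith) hσ.le)) (by positivity)) (by positivity) (by positivity)
    _ = _ := by ring

/-- The last pointwise step of the absorption. -/
theorem absorb {γ Cb K Cy M w y4 ym E S jv Bd sd N D1 D2 F G1 G2 : ℝ} (hγ : 0 < γ) (hCb : 0 ≤ Cb)
    (hK : 0 < K) (hKN : Cb * N ≤ K) (hwy : 0 ≤ w * ym) (hy4 : 0 ≤ y4) (hlow : E ≤ w * S)
    (hd : sd ≤ N * (D1 + D2)) (h4 : γ / 2 * y4 * S - Cb * sd ≤ y4 * jv + Bd)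
    (e2 : w * ym * D1 ≤ γ / (4 * K) * F + Cy * G1) (e3 : w * ym * D2 ≤ M * G2)
    (hF : F = ym * y4 * E) (hD : 0 ≤ D1 + D2 ∧ 0 ≤ ym) :
    γ / 4 * F ≤ w * ym * (y4 * jv + Bd) + K * Cy * G1 + K * M * G2 := by
  have h5 := mul_le_mul_of_nonneg_left h4 hwy
  have h6 : γ / 2 * F ≤ γ / 2 * (w * ym * (y4 * S)) := by
    have := mul_le_mul_of_nonneg_left hlow (mul_nonneg hD.2 hy4)
    refine mul_le_mul_of_nonneg_left ?_ (by linarith)
    rw [hF]; linarith
  have h7 : w * ym * (Cb * sd) ≤ K * (w * ym * D1 + w * ym * D2) := by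
    have a1 := mul_le_mul_of_nonneg_left hd (mul_nonneg hwy hCb)
    have a2 := mul_le_mul_of_nonneg_left hKN (mul_nonneg hwy hD.1)
    linarith
  have h8 := mul_le_mul_of_nonneg_left (add_le_add e2 e3) hK.le
  have h9 : K * (γ / (4 * K) * F) = γ / 4 * F := by field_simp
  linarith

/-- The pointwise form of the localised estimate. -/
theorem pointwise {A p q μ c d₁ d₂ d₃ d₄ τ σ γ Cb K Cy M ρ R : ℝ} {m : ℕ}
    (hA : -2 < A) (hA0 : A ≤ 0) (hn : 5 ≤ n) (hp : 0 < p) (hγ : 0 < γ)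
    {E : Prop}
    (hco : ∀ F Q X Y Z P₁ P₂ : ℝ, (E → Y = X ∧ Z = X ∧ P₂ = P₁) →
      0 ≤ X → 0 ≤ Y → Z ^ 2 ≤ X * Y → 0 ≤ P₁ → 0 ≤ P₂ →
      (∀ k : ℝ, (X + P₁ + k / 2 * X) ^ 2 / (2 * ((n : ℝ) + A) / (2 + A)) - k ^ 2 / 4 * X ^ 2 ≤
        F + k * Q) →
      γ * bulkS F X Y P₁ P₂ ≤ jetS p q μ c d₁ d₂ d₃ d₄ F Q X Y Z P₁ P₂)
    (hτdef : τ = 2 * (p * q - 1) / (p + 1)) (hσ0 : 0 < σ) (hCb : 0 ≤ Cb)
    (hbd : ∀ (H : Fin n → Fin n → ℝ) (a b z d : Fin n → ℝ) (P₁ P₂ y : ℝ),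
      (∀ i j, H i j = H j i) → ∑ i, H i i = ip a a + P₁ → 0 ≤ P₁ → 0 ≤ P₂ →
      -(γ / 2 * y ^ 4 * bulkS (gam A H a z) (ip a a) (ip b b) P₁ P₂ + Cb * ∑ i, d i ^ 4) ≤
        ∑ i, ((m + 4 : ℕ) : ℝ) * d i * y ^ 3 * ((∑ j, H i j * a j) +
          (ip a a * (c * a i - A / 2 * z i) + (d₁ * P₁ + d₃ * P₂) * a i +
            (d₂ * P₁ + d₄ * P₂) * b i)))
    (hK : 0 < K) (hKdef : K = Cb * n * 8 + 1) (hCy : 0 ≤ Cy)
    (hy : ∀ f y D : ℝ, 0 ≤ y → y ≤ 1 → 0 ≤ D →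
      Real.exp (-μ * f) * y ^ (m : ℝ) * D ^ 4 ≤
        γ / (4 * K) * (y ^ ((m + 4 : ℕ) : ℝ) * Real.exp (-(μ + τ) * f)) + Cy * D ^ σ)
    {f g J : EuclideanSpace ℝ (Fin n) → ℝ} {x : EuclideanSpace ℝ (Fin n)}
    (hf : ContDiffOn ℝ 2 f {0}ᶜ)
    (hlf : ∀ x ≠ 0, lap f x = (∑ i, pd i f x ^ 2) + rw' A x * Real.exp (f x - p * g x))
    (hM : ∀ x : EuclideanSpace ℝ (Fin n), ‖x‖ ≤ 2 * ρ → Real.exp (-μ * f x) ≤ M)
    (hE : E → g = f ∧ q = p)
    (hρ : 0 < ρ) (hρ1 : 2 * ρ ≤ 1) (hR : 0 < R) (hx0 : x ≠ 0)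
    (hJ : ∀ x ≠ 0, J x = rw' (-A) x * Real.exp (-μ * f x) *
        (ann n ρ R x ^ (m + 4) * jetS p q μ c d₁ d₂ d₃ d₄
            (gam A (fun i j => pd i (pd j f) x) (fun i => pd i f x) (fun i => zc i x))
            (qfw A (fun i j => pd i (pd j f) x) (fun i => pd i f x) (fun i => zc i x))
            (ip (fun i => pd i f x) fun i => pd i f x) (ip (fun i => pd i g x) fun i => pd i g x)
            (ip (fun i => pd i f x) fun i => pd i g x)
            (rw' A x * Real.exp (f x - p * g x)) (rw' A x * Real.exp (g x - q * f x)) +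
          ∑ i, pd i (fun y => ann n ρ R y ^ (m + 4)) x * ((∑ j, pd i (pd j f) x * pd j f x) +
            (ip (fun i => pd i f x) (fun i => pd i f x) * (c * pd i f x - A / 2 * zc i x) +
              (d₁ * (rw' A x * Real.exp (f x - p * g x)) +
                d₃ * (rw' A x * Real.exp (g x - q * f x))) * pd i f x +
              (d₂ * (rw' A x * Real.exp (f x - p * g x)) +
                d₄ * (rw' A x * Real.exp (g x - q * f x))) * pd i g x)))) :
    γ / 4 * (ann n ρ R x ^ (m + 4) * (rw' A x * Real.exp (-(μ + τ) * f x))) ≤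
      J x + K * Cy * (R ^ A * (2 * R) ^ (-A / 2 * σ) * ‖fderiv ℝ (cut n R) x‖ ^ σ) +
        K * M * ‖fderiv ℝ (cut n ρ) x‖ ^ (4 : ℝ) := by
  have hΩ : IsOpen ({0}ᶜ : Set (EuclideanSpace ℝ (Fin n))) := isOpen_compl_singleton
  have hy0 : 0 ≤ ann n ρ R x := ann_nonneg
  have hy1 : ann n ρ R x ≤ 1 := ann_le_one
  set χ := ann n ρ R x with hχ
  set a : Fin n → ℝ := fun i => pd i f x with ha
  set b : Fin n → ℝ := fun i => pd i g x with hb
  set z : Fin n → ℝ := fun i => zc i x with hz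
  set H : Fin n → Fin n → ℝ := fun i j => pd i (pd j f) x with hH
  set Rw := rw' A x with hRw
  set Sw := rw' (-A) x with hSw
  have hR0 : 0 < Rw := rw'_pos A hx0
  have hS0 : 0 < Sw := rw'_pos (-A) hx0
  have hSR : Sw * Rw = 1 := by
    rw [hSw, hRw, rw'_mul _ _ hx0, neg_add_cancel, rw', zero_div, Real.rpow_zero]
  set P₁ := Rw * Real.exp (f x - p * g x) with hP₁
  set P₂ := Rw * Real.exp (g x - q * f x) with hP₂
  have hP₁0 : 0 ≤ P₁ := mul_nonneg hR0.le (Real.exp_pos _).le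
  have hP₂0 : 0 ≤ P₂ := mul_nonneg hR0.le (Real.exp_pos _).le
  have hsym : ∀ i j, H i j = H j i := fun i j => pd_symm hΩ hf hx0 i j
  have htr : ∑ i, H i i = ip a a + P₁ := by
    show ∑ i, pd i (pd i f) x = _
    rw [← lap, hlf x hx0]; simp [ip, ha, hP₁, hRw, pow_two]
  have hjet := hco (gam A H a z) (qfw A H a z) (ip a a) (ip b b) (ip a b) P₁ P₂
    (fun e => by simp only [ha, hb, hP₁, hP₂, hE e]; exact ⟨trivial, trivial, trivial⟩)
    (ip_self_nonneg a) (ip_self_nonneg b) (ip_sq_le a b) hP₁0 hP₂0 fun k => by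
      have := gam_cd (by omega) hA hA0 H hsym a z k
      rwa [htr] at this
  set d : Fin n → ℝ := fun i => pd i (ann n ρ R) x with hd
  have hbd' := hbd H a b z d P₁ P₂ χ hsym htr hP₁0 hP₂0
  have hdη : ∀ i, pd i (fun y => ann n ρ R y ^ (m + 4)) x =
      ((m + 4 : ℕ) : ℝ) * d i * χ ^ (m + 3) := fun i => by
    show fderiv ℝ (fun y => ann n ρ R y ^ (m + 4)) x _ = _
    rw [fderiv_fun_pow _ (contDiff_ann.differentiable (by norm_num) x)]
    simp [hd, pd, hχ]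
    ring
  set jv := jetS p q μ c d₁ d₂ d₃ d₄ (gam A H a z) (qfw A H a z) (ip a a) (ip b b) (ip a b) P₁ P₂
    with hjv
  set S := bulkS (gam A H a z) (ip a a) (ip b b) P₁ P₂ with hS
  set Bd := ∑ i, ((m + 4 : ℕ) : ℝ) * d i * χ ^ 3 * ((∑ j, H i j * a j) +
      (ip a a * (c * a i - A / 2 * z i) + (d₁ * P₁ + d₃ * P₂) * a i +
        (d₂ * P₁ + d₄ * P₂) * b i)) with hBd
  set w := Real.exp (-μ * f x) with hw
  have eJ : J x = Sw * w * χ ^ m * (χ ^ 4 * jv + Bd) := by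
    rw [hJ x hx0]
    simp only [hdη]
    simp only [hBd, hjv, ha, hb, hH, hz, hP₁, hP₂, hw, hSw, hRw, hχ]
    simp only [mul_add, Finset.mul_sum]
    congr 1
    · ring
    · exact Finset.sum_congr rfl fun i _ => by ring
  have hw0 : 0 ≤ Sw * w * χ ^ m :=
    mul_nonneg (mul_nonneg hS0.le (Real.exp_pos _).le) (pow_nonneg hy0 _)
  have h4 : γ / 2 * χ ^ 4 * S - Cb * ∑ i, d i ^ 4 ≤ χ ^ 4 * jv + Bd := by
    have := mul_le_mul_of_nonneg_left hjet (pow_nonneg hy0 4)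
    nlinarith [hbd']
  have hlow : Rw * Real.exp (-(μ + τ) * f x) ≤ Sw * w * S := by
    have h := power_le (q := q) hp (f x) (g x)
    rw [← hτdef] at h
    have e : Real.exp (-(μ + τ) * f x) = w * Real.exp (-τ * f x) := by
      rw [hw, ← Real.exp_add]; ring_nf
    have hb0 : Rw ^ 2 * Real.exp (-τ * f x) ≤ S := by
      refine (mul_le_mul_of_nonneg_left h (sq_nonneg _)).trans ?_
      have := gam_nonneg (by omega) hA hA0 H hsym a z
      have : 0 ≤ (P₁ + P₂) * ip b b := mul_nonneg (add_nonneg hP₁0 hP₂0) (ip_self_nonneg b)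
      simp only [hS, bulkS, hP₁, hP₂] at this ⊢
      nlinarith [sq_nonneg (ip a a)]
    have := mul_le_mul_of_nonneg_left hb0 (mul_nonneg hS0.le (Real.exp_pos (-μ * f x)).le)
    rw [e]
    linear_combination this + Rw * w * Real.exp (-τ * f x) * (le_of_eq hSR.symm)
  set D1 := ‖fderiv ℝ (cut n R) x‖ with hD1
  set D2 := ‖fderiv ℝ (cut n ρ) x‖ with hD2
  have hd4 : ∑ i, d i ^ 4 ≤ (n : ℝ) * 8 * (D1 ^ 4 + D2 ^ 4) := by
    refine (Finset.sum_le_sum fun i _ => pd_ann_pow_four (ρ := ρ) (R := R) (x := x) i).trans ?_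
    simp only [Finset.sum_const, Finset.card_univ, Fintype.card_fin, nsmul_eq_mul, hD1, hD2]
    exact le_of_eq (by ring)
  set F := χ ^ (m + 4) * (Rw * Real.exp (-(μ + τ) * f x)) with hFdef
  have hT : Rw * rw' (-A / 2) x ^ 4 = Sw := by
    rw [hRw, hSw, show rw' (-A / 2) x ^ 4 = rw' (-A / 2) x * rw' (-A / 2) x *
      (rw' (-A / 2) x * rw' (-A / 2) x) by ring, rw'_mul _ _ hx0, rw'_mul _ _ hx0, rw'_mul _ _ hx0]
    ring_nf
  have e2 : Sw * w * χ ^ m * D1 ^ 4 ≤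
      γ / (4 * K) * F + Cy * (R ^ A * (2 * R) ^ (-A / 2 * σ) * D1 ^ σ) := by
    have hyy := hy (f x) χ (D1 * rw' (-A / 2) x) hy0 hy1
      (mul_nonneg (norm_nonneg _) (rw'_pos _ hx0).le)
    rw [Real.rpow_natCast, Real.rpow_natCast] at hyy
    have h' := mul_le_mul_of_nonneg_left hyy hR0.le
    have h'' := mul_le_mul_of_nonneg_left (outer_weight hA0 hσ0 hR hx0) hCy
    have e : Rw * (w * χ ^ m * (D1 * rw' (-A / 2) x) ^ 4) = Sw * w * χ ^ m * D1 ^ 4 := by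
      rw [← hT]; ring
    rw [← hw, e] at h'
    rw [← hRw, ← hD1] at h''
    linarith
  have e3 : Sw * w * χ ^ m * D2 ^ 4 ≤ M * D2 ^ (4 : ℝ) := by
    rw [show D2 ^ (4 : ℝ) = D2 ^ 4 by simp]
    by_cases hx2 : 2 * ρ < ‖x‖
    · rw [hD2, fderiv_cut_eq_zero hρ hx2]; simp
    · have hS1 : Sw ≤ 1 := by
        rw [hSw, rw'_eq]
        exact Real.rpow_le_one (norm_nonneg _) ((not_lt.1 hx2).trans hρ1) (by linarith)
      refine mul_le_mul_of_nonneg_right ?_ (by positivity)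
      exact ((mul_le_of_le_one_right (mul_nonneg hS0.le (Real.exp_pos _).le)
        (pow_le_one₀ hy0 hy1)).trans (mul_le_of_le_one_left (Real.exp_pos _).le hS1)).trans
        (hM x (not_lt.1 hx2))
  rw [eJ]
  exact absorb hγ hCb hK (by rw [hKdef]; linarith) hw0 (pow_nonneg hy0 _) hlow hd4 h4 e2 e3
    (by rw [hFdef, pow_add]) ⟨by positivity, pow_nonneg hy0 _⟩

/-- The localised estimate. -/
theorem local_estimate (hn : 5 ≤ n) {A p q μ c d₁ d₂ d₃ d₄ τ σ : ℝ} (hA : -2 < A) (hA0 : A ≤ 0)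
    (hp : 0 < p) (hμ : 0 ≤ μ) (hτ : 0 < τ)
    (hτdef : τ = 2 * (p * q - 1) / (p + 1)) (hσ : σ * τ = 4 * (μ + τ))
    {E : Prop} (hc : CoerciveIf E (2 * ((n : ℝ) + A) / (2 + A)) p q μ c d₁ d₂ d₃ d₄) :
    ∃ k : ℕ, ∃ C : ℝ, 0 ≤ C ∧ ∀ (f g : EuclideanSpace ℝ (Fin n) → ℝ) (M ρ R : ℝ),
      (E → g = f ∧ q = p) → ContDiffOn ℝ 2 f {0}ᶜ → ContDiffOn ℝ 2 g {0}ᶜ →
      (∀ x ≠ 0, lap f x = (∑ i, pd i f x ^ 2) + rw' A x * Real.exp (f x - p * g x)) →
      (∀ x ≠ 0, lap g x = (∑ i, pd i g x ^ 2) + rw' A x * Real.exp (g x - q * f x)) →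
      (∀ x : EuclideanSpace ℝ (Fin n), ‖x‖ ≤ 2 * ρ → Real.exp (-μ * f x) ≤ M) →
      0 < ρ → 2 * ρ ≤ 1 → 0 < R →
      Integrable (fun x => ann n ρ R x ^ k * (rw' A x * Real.exp (-(μ + τ) * f x))) ∧
      ∫ x, ann n ρ R x ^ k * (rw' A x * Real.exp (-(μ + τ) * f x)) ≤
        C * (R ^ A * (2 * R) ^ (-A / 2 * σ) * (∫ x, ‖fderiv ℝ (cut n R) x‖ ^ σ) +
          M * ∫ x, ‖fderiv ℝ (cut n ρ) x‖ ^ (4 : ℝ)) := by
  obtain ⟨γ, hγ, hco⟩ := hc
  have hσ0 : 0 < σ := by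
    by_contra h
    nlinarith [mul_nonpos_of_nonpos_of_nonneg (not_lt.1 h) hτ.le]
  set m : ℕ := ⌈σ⌉₊ with hmdef
  have hm : ((m + 4 : ℕ) : ℝ) * μ / (μ + τ) ≤ (m : ℝ) := by
    rw [div_le_iff₀ (by linarith)]
    have h1 : σ ≤ (m : ℝ) := Nat.le_ceil σ
    push_cast
    nlinarith [mul_le_mul_of_nonneg_right h1 hτ.le]
  obtain ⟨Cb, hCb, hbd⟩ := bdry_bound hn hA hA0 ((m + 4 : ℕ) : ℝ) c d₁ d₂ d₃ d₄ (half_pos hγ)
  set K : ℝ := Cb * n * 8 + 1 with hKdef
  have hK : 0 < K := by positivity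
  obtain ⟨Cy, hCy, hy⟩ := young hμ hτ hσ hm (by positivity)
    (div_pos hγ (by positivity : (0 : ℝ) < 4 * K))
  refine ⟨m + 4, 4 / γ * K * (Cy + 1), by positivity,
    fun f g M ρ R hE hf hg hlf hlg hM hρ hρ1 hR => ?_⟩
  have hΩ : IsOpen ({0}ᶜ : Set (EuclideanSpace ℝ (Fin n))) := isOpen_compl_singleton
  have hM0 : 0 ≤ M := (Real.exp_pos _).le.trans (hM 0 (by simp; positivity))
  set χ := ann n ρ R with hχ
  set η : EuclideanSpace ℝ (Fin n) → ℝ := fun x => χ x ^ (m + 4) with hη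
  have hηd : ContDiff ℝ 2 η := contDiff_ann.pow _
  have hsub : tsupport η ⊆ tsupport χ := closure_mono fun x hx h => hx (by simp [hη, h])
  have hΩs : tsupport χ ⊆ {0}ᶜ := (ann_support hρ hR).trans fun x hx h => by
    rw [mem_singleton_iff] at h
    exact hx.2 (by simp [h, hρ])
  have hKc : IsCompact (tsupport χ) :=
    (isCompact_closedBall (0 : EuclideanSpace ℝ (Fin n)) (2 * R)).of_isClosed_subset
      (isClosed_tsupport _) ((ann_support hρ hR).trans sdiff_subset)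
  have hηc : HasCompactSupport η := hKc.of_isClosed_subset (isClosed_tsupport _) hsub
  obtain ⟨J, hJi, hJ0, hJz, hJ⟩ := identity (A := A) (μ := μ) (c := c) (d₁ := d₁) (d₂ := d₂)
    (d₃ := d₃) (d₄ := d₄) hf hg hlf hlg hηd hηc (hsub.trans hΩs)
  set F := fun x => χ x ^ (m + 4) * (rw' A x * Real.exp (-(μ + τ) * f x)) with hF
  have hFi : Integrable F := integrable_of_support hΩ hKc hΩs
    ((contDiff_ann.continuous.continuousOn.pow _).mul
      ((contDiffOn_rw' (k := 1) A).continuousOn.mul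
        ((continuousOn_const.mul hf.continuousOn).rexp)))
    fun x hx => by
      show χ x ^ (m + 4) * (rw' A x * Real.exp (-(μ + τ) * f x)) = 0
      simp [image_eq_zero_of_notMem_tsupport hx]
  set Ko : ℝ := R ^ A * (2 * R) ^ (-A / 2 * σ) with hKo
  have hKo0 : 0 ≤ Ko := by positivity
  set G1 := fun x => Ko * ‖fderiv ℝ (cut n R) x‖ ^ σ with hG1
  set G2 := fun x => ‖fderiv ℝ (cut n ρ) x‖ ^ (4 : ℝ) with hG2
  have hG1i : Integrable G1 := (((integral_fderiv_cut hσ0 n).choose_spec R hR).1).const_mul Ko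
  have hG2i : Integrable G2 := ((integral_fderiv_cut (by norm_num) n).choose_spec ρ hρ).1
  refine ⟨hFi, ?_⟩
  have pw : ∀ x, γ / 4 * F x ≤ J x + K * Cy * G1 x + K * M * G2 x := by
    intro x
    have g1 : 0 ≤ G1 x := mul_nonneg hKo0 (Real.rpow_nonneg (norm_nonneg _) _)
    have g2 : 0 ≤ G2 x := Real.rpow_nonneg (norm_nonneg _) _
    by_cases hx : x ∈ tsupport χ
    swap
    · have hFx : F x = 0 := by simp [hF, image_eq_zero_of_notMem_tsupport hx]
      rw [hJz x fun h => hx (hsub h), hFx]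
      have := mul_nonneg (mul_nonneg hK.le hCy) g1
      have := mul_nonneg (mul_nonneg hK.le hM0) g2
      linarith
    have hx0 : x ≠ 0 := hΩs hx
    exact pointwise hA hA0 hn hp hγ hco hτdef hσ0 hCb hbd hK hKdef hCy hy hf hlf hM hE hρ hρ1 hR hx0
      hJ
  have hint := integral_mono (hFi.const_mul (γ / 4))
    ((hJi.add (hG1i.const_mul (K * Cy))).add (hG2i.const_mul (K * M))) pw
  simp only [Pi.add_apply] at hint
  have hJG : Integrable fun x => J x + K * Cy * G1 x := hJi.add (hG1i.const_mul _)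
  rw [integral_const_mul, integral_add hJG (hG2i.const_mul _),
    integral_add hJi (hG1i.const_mul _), integral_const_mul (K * Cy) G1,
    integral_const_mul (K * M) G2, hJ0] at hint
  have hG1e : ∫ x, G1 x = Ko * ∫ x, ‖fderiv ℝ (cut n R) x‖ ^ σ := integral_const_mul _ _
  have hI1 : 0 ≤ ∫ x, G1 x :=
    integral_nonneg fun x => mul_nonneg hKo0 (Real.rpow_nonneg (norm_nonneg _) _)
  have hI2 : 0 ≤ ∫ x, G2 x := integral_nonneg fun x => Real.rpow_nonneg (norm_nonneg _) _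
  rw [← hG1e]
  calc ∫ x, F x = 4 / γ * (γ / 4 * ∫ x, F x) := by field_simp
    _ ≤ 4 / γ * (K * Cy * (∫ x, G1 x) + K * M * ∫ x, G2 x) :=
        mul_le_mul_of_nonneg_left (by linarith) (by positivity)
    _ ≤ _ := by
        rw [mul_assoc (4 / γ) K, mul_assoc (4 / γ)]
        refine mul_le_mul_of_nonneg_left ?_ (by positivity)
        nlinarith [mul_nonneg hK.le hI1, mul_nonneg hK.le (mul_nonneg hCy (mul_nonneg hM0 hI2))]

/-- A coercive quartic at the dimension `2 (n + A) / (2 + A)` excludes positive solutions that are diagonal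
when it is only coercive on the diagonal. -/
theorem no_solution_of_coerciveIf {n : ℕ} (hn : 5 ≤ n) {A p q μ c d₁ d₂ d₃ d₄ : ℝ}
    (hA : -2 < A) (hA0 : A ≤ 0) (hp : 0 < p) (_hq : 0 < q) (hpq : 1 < p * q) (hμ : 0 ≤ μ)
    (hσ : 2 * ((n : ℝ) + A) / (2 + A) < 4 + μ * (2 * (p + 1) / (p * q - 1)))
    {E : Prop} (hEq : E → q = p) (hc : CoerciveIf E (2 * ((n : ℝ) + A) / (2 + A)) p q μ c d₁ d₂ d₃ d₄) :
    ¬ ∃ u v : EuclideanSpace ℝ (Fin n) → ℝ, Continuous u ∧ Continuous v ∧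
      (∀ x, 0 < u x ∧ 0 < v x) ∧
      (∀ x ≠ 0, ContDiffAt ℝ 2 u x ∧ ContDiffAt ℝ 2 v x ∧
        -Δ u x = ‖x‖ ^ A * v x ^ p ∧ -Δ v x = ‖x‖ ^ A * u x ^ q) ∧ (E → u = v) := by
  rintro ⟨u, v, hu, -, hpos, h, huv⟩
  set τ : ℝ := 2 * (p * q - 1) / (p + 1) with hτdef
  have hτ : 0 < τ := by rw [hτdef]; have : 0 < p * q - 1 := by linarith
                        positivity
  set σ : ℝ := 4 + μ * (2 * (p + 1) / (p * q - 1)) with hσdef
  have hσeq : σ * τ = 4 * (μ + τ) := by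
    have : p * q - 1 ≠ 0 := by linarith
    rw [hσdef, hτdef]; field_simp; ring
  have hn5 : (5 : ℝ) ≤ n := by exact_mod_cast hn
  have hA2 : 0 < 2 + A := by linarith
  have hσ0 : 0 < σ := lt_of_le_of_lt (div_nonneg (by linarith) hA2.le) hσ
  have hexp : A + -A / 2 * σ + ((n : ℝ) - σ) < 0 := by
    have := (div_lt_iff₀ hA2).1 hσ
    linarith
  set f : EuclideanSpace ℝ (Fin n) → ℝ := fun x => -Real.log (u x) with hf
  set g : EuclideanSpace ℝ (Fin n) → ℝ := fun x => -Real.log (v x) with hg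
  have hfC : ContDiffOn ℝ 2 f {0}ᶜ := fun x hx =>
    ((h x hx).1.log (hpos x).1.ne').neg.contDiffWithinAt
  have hgC : ContDiffOn ℝ 2 g {0}ᶜ := fun x hx =>
    ((h x hx).2.1.log (hpos x).2.ne').neg.contDiffWithinAt
  have hlf : ∀ x ≠ 0, lap f x = (∑ i, pd i f x ^ 2) + rw' A x * Real.exp (f x - p * g x) :=
    fun x hx => by
    obtain ⟨h1, -, he, -⟩ := h x hx
    rw [hf, lap_neg_log (Eventually.of_forall fun y => (hpos y).1) h1, ← laplacian_eq_lap h1, he,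
      hg, rw'_eq]
    congr 1
    rw [Real.rpow_def_of_pos (hpos x).2, Real.exp_sub, Real.exp_neg, Real.exp_log (hpos x).1,
      show p * -Real.log (v x) = -(Real.log (v x) * p) by ring, Real.exp_neg]
    field_simp
  have hlg : ∀ x ≠ 0, lap g x = (∑ i, pd i g x ^ 2) + rw' A x * Real.exp (g x - q * f x) :=
    fun x hx => by
    obtain ⟨-, h1, -, he⟩ := h x hx
    rw [hg, lap_neg_log (Eventually.of_forall fun y => (hpos y).2) h1, ← laplacian_eq_lap h1, he,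
      hf, rw'_eq]
    congr 1
    rw [Real.rpow_def_of_pos (hpos x).1, Real.exp_sub, Real.exp_neg, Real.exp_log (hpos x).2,
      show q * -Real.log (u x) = -(Real.log (u x) * q) by ring, Real.exp_neg]
    field_simp
  -- boundedness near the origin
  have hcont : Continuous fun x => Real.exp (-μ * f x) :=
    ((continuous_const).mul ((hu.log fun x => (hpos x).1.ne').neg)).rexp
  obtain ⟨M, hM⟩ := (isCompact_closedBall (0 : EuclideanSpace ℝ (Fin n)) 1).exists_bound_of_continuousOn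
    hcont.continuousOn
  obtain ⟨k, C, hC, hest⟩ := local_estimate hn hA hA0 hp hμ hτ hτdef hσeq hc
  obtain ⟨B1, hB1⟩ := integral_fderiv_cut hσ0 n
  obtain ⟨B2, hB2⟩ := integral_fderiv_cut (show (0 : ℝ) < 4 by norm_num) n
  -- a fixed ball away from the origin
  set x₀ : EuclideanSpace ℝ (Fin n) := EuclideanSpace.single ⟨0, by omega⟩ 2 with hx₀
  have hx₀n : ‖x₀‖ = 2 := by simp [hx₀]
  set L : ℝ := ∫ x in closedBall x₀ 1, rw' A x * Real.exp (-(μ + τ) * f x) with hL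
  have hball : closedBall x₀ 1 ⊆ ({0}ᶜ : Set (EuclideanSpace ℝ (Fin n))) := fun x hx h0 => by
    rw [mem_singleton_iff] at h0
    rw [mem_closedBall, h0, dist_zero_left, hx₀n] at hx
    norm_num at hx
  have hLc : ContinuousOn (fun x => rw' A x * Real.exp (-(μ + τ) * f x)) (closedBall x₀ 1) :=
    ((contDiffOn_rw' (k := 1) A).continuousOn.mono hball).mul
      (continuousOn_const.mul (hfC.continuousOn.mono hball)).rexp
  have hLi := hLc.integrableOn_compact (μ := volume) (isCompact_closedBall x₀ 1)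
  have hnn : ∀ x : EuclideanSpace ℝ (Fin n), 0 ≤ rw' A x * Real.exp (-(μ + τ) * f x) := fun x =>
    mul_nonneg (Real.rpow_nonneg (sq_nonneg _) _) (Real.exp_pos _).le
  have hLpos : 0 < L := by
    rw [hL, setIntegral_pos_iff_support_of_nonneg_ae (Eventually.of_forall hnn) hLi]
    refine lt_of_lt_of_le (measure_ball_pos volume x₀ one_pos) (measure_mono fun x hx => ?_)
    exact ⟨(mul_pos (rw'_pos A (hball (ball_subset_closedBall hx))) (Real.exp_pos _)).ne',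
      ball_subset_closedBall hx⟩
  have key : ∀ R : ℝ, 3 ≤ R → L ≤ C * (B1 * 2 ^ (-A / 2 * σ) *
      R ^ (A + -A / 2 * σ + ((n : ℝ) - σ)) + M * (B2 * R ^ (4 - (n : ℝ)))) := by
    intro R hR
    have hR0 : 0 < R := by linarith
    have hρ : 0 < R⁻¹ := inv_pos.2 hR0
    have hρ2 : 2 * R⁻¹ ≤ 1 := by rw [← div_eq_mul_inv, div_le_one hR0]; linarith
    have hann : ∀ x ∈ closedBall x₀ 1, ann n R⁻¹ R x = 1 := fun x hx => by
      rw [mem_closedBall, dist_eq_norm] at hx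
      have h1 := norm_sub_norm_le x₀ x
      have h2 := norm_le_norm_add_norm_sub' x x₀
      rw [norm_sub_rev] at h1
      rw [hx₀n] at h1 h2
      exact ann_eq_one hρ hR0 (by linarith) (by linarith)
    obtain ⟨hi, hle⟩ := hest f g M R⁻¹ R (fun e => ⟨by simp only [hf, hg, huv e], hEq e⟩) hfC hgC hlf hlg (fun x hx => by
        have := hM x (by simpa using hx.trans hρ2)
        rwa [Real.norm_eq_abs, abs_of_pos (Real.exp_pos _)] at this) hρ hρ2 hR0
    have hM0 : 0 ≤ M := (norm_nonneg _).trans (hM 0 (by simp))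
    calc L = ∫ x in closedBall x₀ 1,
            ann n R⁻¹ R x ^ k * (rw' A x * Real.exp (-(μ + τ) * f x)) :=
          setIntegral_congr_fun measurableSet_closedBall fun x hx => by simp [hann x hx]
      _ ≤ ∫ x, ann n R⁻¹ R x ^ k * (rw' A x * Real.exp (-(μ + τ) * f x)) :=
          setIntegral_le_integral hi (Eventually.of_forall fun x =>
            mul_nonneg (pow_nonneg ann_nonneg _) (hnn x))
      _ ≤ _ := hle
      _ ≤ _ := by
          refine mul_le_mul_of_nonneg_left (add_le_add ?_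
            (mul_le_mul_of_nonneg_left ((hB2 R⁻¹ hρ).2.trans_eq ?_) hM0)) hC
          · refine (mul_le_mul_of_nonneg_left (hB1 R hR0).2 (by positivity)).trans_eq ?_
            rw [Real.mul_rpow zero_le_two hR0.le, Real.rpow_add hR0, Real.rpow_add hR0]
            ring
          · rw [Real.inv_rpow hR0.le, ← Real.rpow_neg hR0.le, neg_sub]
  have t1 : Tendsto (fun R : ℝ => R ^ (A + -A / 2 * σ + ((n : ℝ) - σ))) atTop (𝓝 0) := by
    simpa using tendsto_rpow_neg_atTop (neg_pos.2 hexp)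
  have hn4 : (4 : ℝ) < n := by linarith
  have t2 : Tendsto (fun R : ℝ => R ^ (4 - (n : ℝ))) atTop (𝓝 0) := by
    simpa using tendsto_rpow_neg_atTop (sub_pos.2 hn4)
  have t := ((t1.const_mul (B1 * 2 ^ (-A / 2 * σ))).add ((t2.const_mul B2).const_mul M)).const_mul C
  simp only [mul_zero, add_zero] at t
  have := ge_of_tendsto t (eventually_atTop.2 ⟨3, key⟩)
  linarith

/-- A coercive quartic at the dimension `2 (n + A) / (2 + A)` excludes positive solutions. -/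
theorem no_solution_of_coercive {n : ℕ} (hn : 5 ≤ n) {A p q μ c d₁ d₂ d₃ d₄ : ℝ}
    (hA : -2 < A) (hA0 : A ≤ 0) (hp : 0 < p) (_hq : 0 < q) (hpq : 1 < p * q) (hμ : 0 ≤ μ)
    (hσ : 2 * ((n : ℝ) + A) / (2 + A) < 4 + μ * (2 * (p + 1) / (p * q - 1)))
    (hc : CoerciveR (2 * ((n : ℝ) + A) / (2 + A)) p q μ c d₁ d₂ d₃ d₄) :
    ¬ ∃ u v : EuclideanSpace ℝ (Fin n) → ℝ, Continuous u ∧ Continuous v ∧
      (∀ x, 0 < u x ∧ 0 < v x) ∧
      ∀ x ≠ 0, ContDiffAt ℝ 2 u x ∧ ContDiffAt ℝ 2 v x ∧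
        -Δ u x = ‖x‖ ^ A * v x ^ p ∧ -Δ v x = ‖x‖ ^ A * u x ^ q := by
  rintro ⟨u, v, hu, hv, hpos, h⟩
  exact no_solution_of_coerciveIf hn hA hA0 hp _hq hpq hμ hσ False.elim hc.toIf
    ⟨u, v, hu, hv, hpos, h, False.elim⟩

end Vale.Agent.P100.Wt
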