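import Vale.Agent.P100.Wt.Split
import Vale.Agent.P100.Wt.Jet

/-!
P100, weighted system: positivity of the three coefficients gives coercivity at a real dimension.
-/

namespace Vale.Agent.P100.Wt

open Vale.Agent.P100.Wt.Split (cA cB cC cν cl cz cs cb cert_split cert_mul)

theorem quad_nonneg {X Y Z : ℝ} (hX0 : 0 ≤ X) (hY0 : 0 ≤ Y) (hZ : Z ^ 2 ≤ X * Y) (r : ℝ) :
    0 ≤ Y - 2 * r * Z + r ^ 2 * X := by
  rcases hX0.lt_or_eq with hX1 | hX1
  · nlinarith [sq_nonneg (r * X - Z)]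
  · rw [← hX1] at hZ ⊢
    have : Z = 0 := by nlinarith
    rw [this]; linarith

/-- Positivity of the three coefficients gives coercivity. -/
theorem coerciveR_of_pos {N p q μ w k D : ℝ} (hN : 1 ≤ N) (hp : 1 < p) (hD : 0 < D)
    (hA : 0 < cA (1 / N) k q μ w D) (hB : 0 ≤ cB (1 / N) k p q μ w D)
    (hC : 0 < cC (1 / N) p q μ w D) :
    CoerciveR N p q μ ((k - 2 + μ) / 2) (D * cz p μ w - 1) (-D) (D * (q + μ - 4 * w)) D := by
  have hp1 : 0 < p - 1 := by linarith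
  set h : ℝ := 1 / N with hh
  have h0 : 0 < h := by positivity
  have h1 : h ≤ 1 := by rw [hh, div_le_one (by linarith)]; exact hN
  set ν := cν q μ w with hν
  set l := cl q μ w with hl
  set A := cA h k q μ w D with hAdef
  set C := cC h p q μ w D with hCdef
  -- all constants are absorbed by one
  set M : ℝ := 8 + 4 * k ^ 2 + 6 * w ^ 2 + 3 * (1 + w ^ 2) * (ν ^ 2 + l ^ 2 + 1) with hM
  set M' : ℝ := 4 * M with hM'
  have hM8 : 8 ≤ M := by rw [hM]; nlinarith only [sq_nonneg k, sq_nonneg w, sq_nonneg ν, sq_nonneg l]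
  set γ : ℝ := min (1 / 2) (min (min A C) (min D (D * (p - 1)))) / M' with hγ
  have hγ0 : 0 < γ := div_pos (lt_min (by norm_num)
    (lt_min (lt_min hA hC) (lt_min hD (mul_pos hD hp1)))) (by linarith)
  have hmin : γ * M' = min (1 / 2) (min (min A C) (min D (D * (p - 1)))) :=
    div_mul_cancel₀ _ (by linarith)
  have g1 : γ * M' ≤ 1 / 2 := hmin.le.trans (min_le_left _ _)
  have gA : γ * M' ≤ A := hmin.le.trans ((min_le_right _ _).trans
    ((min_le_left _ _).trans (min_le_left _ _)))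
  have gC : γ * M' ≤ C := hmin.le.trans ((min_le_right _ _).trans
    ((min_le_left _ _).trans (min_le_right _ _)))
  have gD : γ * M' ≤ D := hmin.le.trans ((min_le_right _ _).trans
    ((min_le_right _ _).trans (min_le_left _ _)))
  have gp : γ * M' ≤ D * (p - 1) := hmin.le.trans ((min_le_right _ _).trans
    ((min_le_right _ _).trans (min_le_right _ _)))
  refine ⟨γ, hγ0, fun F Q X Y Z P₁ P₂ hX0 hY0 hZ hP₁ hP₂ htrace => ?_⟩
  have hM'32 : γ * 32 ≤ γ * M' := mul_le_mul_of_nonneg_left (by linarith) hγ0.le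
  have hγ1 : 0 < 1 - γ := by linarith
  have hquad : ∀ r : ℝ, 0 ≤ Y - 2 * r * Z + r ^ 2 * X := quad_nonneg hX0 hY0 hZ
  set W := Y - 2 * w * Z + w ^ 2 * X with hW
  have hW0 : 0 ≤ W := hquad w
  have hYW : Y ≤ 2 * W + 2 * w ^ 2 * X := by
    have := hquad (2 * w)
    rw [hW]; linarith
  have key : jetS p q μ ((k - 2 + μ) / 2) (D * cz p μ w - 1) (-D) (D * (q + μ - 4 * w)) D
      F Q X Y Z P₁ P₂ =
      F + k * Q + (A - h - k * h + (1 - h) * k ^ 2 / 4) * X ^ 2 +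
        (cB h k p q μ w D - 2 * h - k * h) * (X * P₁) + (C - h) * P₁ ^ 2 +
        D * (P₂ + ν * P₁ + l * X) ^ 2 +
        D * ((p - 1) * P₁ + 2 * P₂) * W := by
    rw [hW]
    simp only [jetS, hAdef, hCdef, hν, hl]
    clear_value h
    exact cert_split F Q X Y Z P₁ P₂ (by linarith)
  clear_value h W A C M M' γ ν l
  rw [key, bulkS]
  have hH := mul_le_mul_of_nonneg_left (htrace (k / (1 - γ))) hγ1.le
  have e3 : (1 - γ) * ((X + P₁ + k / (1 - γ) / 2 * X) ^ 2 / N -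
      (k / (1 - γ)) ^ 2 / 4 * X ^ 2) = (1 - γ) * h * (X + P₁) ^ 2 + k * h * (X + P₁) * X
        - (1 - h) * (k ^ 2 / (1 - γ)) / 4 * X ^ 2 := by
    rw [hh]; field_simp; ring
  have e4 : (1 - γ) * (F + k / (1 - γ) * Q) = (1 - γ) * F + k * Q := by
    field_simp
  rw [e3, e4] at hH
  clear htrace hquad
  have hk : (1 - h) * (k ^ 2 / (1 - γ)) ≤ (1 - h) * (k ^ 2 + 2 * γ * k ^ 2) := by
    refine mul_le_mul_of_nonneg_left ?_ (by linarith)
    rw [div_le_iff₀ hγ1]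
    linarith only [mul_nonneg (mul_nonneg hγ0.le (sq_nonneg k))
      (show 0 ≤ 1 - 2 * γ by linarith only [hM'32, g1, hγ0])]
  have hk' : (1 - h) * (2 * γ * k ^ 2) ≤ 1 * (2 * γ * k ^ 2) :=
    mul_le_mul_of_nonneg_right (by linarith) (by positivity)
  have hk2 := mul_le_mul_of_nonneg_right (show (1 - h) * (k ^ 2 / (1 - γ)) / 4
    ≤ ((1 - h) * k ^ 2 + 2 * γ * k ^ 2) / 4 by linarith only [hk, hk']) (sq_nonneg X)
  -- the lower order terms
  have hY' : (P₁ + P₂) * Y ≤ 2 * ((P₁ + P₂) * W) + w ^ 2 * (2 * X ^ 2 + P₁ ^ 2 + P₂ ^ 2) := by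
    refine (mul_le_mul_of_nonneg_left hYW (by linarith)).trans ?_
    nlinarith only [mul_nonneg (sq_nonneg w) (sq_nonneg (X - P₁)),
      mul_nonneg (sq_nonneg w) (sq_nonneg (X - P₂))]
  have b1 := mul_le_mul_of_nonneg_left hY' hγ0.le
  have hb2 : γ * (1 + w ^ 2) * (3 * (ν ^ 2 + l ^ 2 + 1)) ≤ γ * M' / 2 := by
    rw [mul_assoc γ, mul_div_assoc]
    refine mul_le_mul_of_nonneg_left ?_ hγ0.le
    rw [hM', hM]
    nlinarith only [sq_nonneg k, sq_nonneg w,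
      show 0 ≤ (1 + w ^ 2) * (ν ^ 2 + l ^ 2 + 1) by positivity]
  have b2 := cert_mul (γ := γ * (1 + w ^ 2)) (A := A / 2) (C := C / 2) (D := D) (ν := ν) (l := l)
    (M := 3 * (ν ^ 2 + l ^ 2 + 1)) X P₁ P₂ (by positivity) (hb2.trans (by linarith))
    (hb2.trans (by linarith)) (hb2.trans (by linarith))
    (by nlinarith only [sq_nonneg ν]) (by nlinarith only [sq_nonneg l])
    (by nlinarith only [sq_nonneg ν, sq_nonneg l])
  have b3 : γ * h * (X + P₁) ^ 2 ≤ γ * 1 * (2 * X ^ 2 + 2 * P₁ ^ 2) :=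
    mul_le_mul (mul_le_mul_of_nonneg_left h1 hγ0.le) (by nlinarith only [sq_nonneg (X - P₁)])
      (sq_nonneg _) (by positivity)
  have hMA : γ * (4 + 2 * w ^ 2 + k ^ 2) ≤ γ * M' / 2 := by
    rw [mul_div_assoc]
    refine mul_le_mul_of_nonneg_left ?_ hγ0.le
    rw [hM', hM]
    nlinarith only [sq_nonneg k, sq_nonneg w,
      show 0 ≤ (1 + w ^ 2) * (ν ^ 2 + l ^ 2 + 1) by positivity]
  have c1 : γ * (4 + 2 * w ^ 2 + k ^ 2) * X ^ 2 ≤ A / 2 * X ^ 2 :=
    mul_le_mul_of_nonneg_right (hMA.trans (by linarith)) (sq_nonneg X)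
  have c2 : γ * (4 + 2 * w ^ 2 + k ^ 2) * P₁ ^ 2 ≤ C / 2 * P₁ ^ 2 :=
    mul_le_mul_of_nonneg_right (hMA.trans (by linarith)) (sq_nonneg P₁)
  have c4 : γ * 2 * (P₁ * W) ≤ D * (p - 1) * (P₁ * W) :=
    mul_le_mul_of_nonneg_right (by linarith) (mul_nonneg hP₁ hW0)
  have c5 : γ * 2 * (P₂ * W) ≤ D * 2 * (P₂ * W) :=
    mul_le_mul_of_nonneg_right (by linarith) (mul_nonneg hP₂ hW0)
  have c6 := mul_nonneg hB (mul_nonneg hX0 hP₁)
  have c7 : 0 ≤ γ * k ^ 2 * X ^ 2 := by positivity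
  have c8 : 0 ≤ γ * k ^ 2 * P₁ ^ 2 := by positivity
  have c9 : 0 ≤ γ * w ^ 2 * P₁ ^ 2 := by positivity
  have c10 : 0 ≤ γ * X ^ 2 := by positivity
  have c11 : 0 ≤ γ * P₁ ^ 2 := by positivity
  linarith only [hH, hk2, b1, b2, b3, c1, c2, c4, c5, c6, c7, c8, c9, c10, c11]

/-- A smaller effective dimension only helps. -/
theorem CoerciveR.mono {N N₀ p q μ c d₁ d₂ d₃ d₄ : ℝ} (hN : 0 < N) (hle : N ≤ N₀)
    (h : CoerciveR N₀ p q μ c d₁ d₂ d₃ d₄) : CoerciveR N p q μ c d₁ d₂ d₃ d₄ := by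
  obtain ⟨γ, hγ, h⟩ := h
  refine ⟨γ, hγ, fun F Q X Y Z P₁ P₂ hX hY hZ hP₁ hP₂ ht => h F Q X Y Z P₁ P₂ hX hY hZ hP₁ hP₂
    fun k => le_trans ?_ (ht k)⟩
  exact sub_le_sub_right (div_le_div_of_nonneg_left (sq_nonneg _) hN hle) _

/-- The slope of the mixed coefficient in `k`. -/
noncomputable def kroot (h p q μ w D : ℝ) : ℝ := -cB h 0 p q μ w D / (h + 1 / 2)

theorem cB_kroot {h p q μ w D : ℝ} (hh : h + 1 / 2 ≠ 0) :
    cB h (kroot h p q μ w D) p q μ w D = 0 := by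
  have e : ∀ k, cB h k p q μ w D = cB h 0 p q μ w D + k * (h + 1 / 2) := fun k => by
    simp only [cB]; ring
  rw [e, kroot, div_mul_cancel₀ _ hh]; ring

/-- Positivity at the least admissible `D` and at the root of the mixed coefficient. -/
theorem coerciveR_of_root {N p q μ w : ℝ} (hN : 1 < N) (hp : 1 < p) (hs : 0 < cs p q μ w)
    (hA : 0 < cA (1 / N) (kroot (1 / N) p q μ w ((1 - 1 / N) / cs p q μ w)) q μ w
      ((1 - 1 / N) / cs p q μ w)) :
    ∃ c d₁ d₂ d₃ d₄, CoerciveR N p q μ c d₁ d₂ d₃ d₄ := by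
  have hN0 : 0 < 1 / N := by positivity
  have hN1 : 1 / N < 1 := by rw [div_lt_one (by linarith)]; exact hN
  set D₀ := (1 - 1 / N) / cs p q μ w with hD₀
  have hD : 0 < D₀ := div_pos (by linarith) hs
  have hev : ∀ᶠ D in nhds D₀, 0 < cA (1 / N) (kroot (1 / N) p q μ w D) q μ w D := by
    refine ContinuousAt.eventually_lt continuousAt_const (Continuous.continuousAt ?_) hA
    unfold cA kroot cB
    fun_prop
  obtain ⟨D, hD1, hD2⟩ :=
    ((hev.filter_mono nhdsWithin_le_nhds).and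
      (self_mem_nhdsWithin : ∀ᶠ D in nhdsWithin D₀ (Set.Ioi D₀), D ∈ Set.Ioi D₀)).exists
  refine ⟨_, _, _, _, _, coerciveR_of_pos (w := w) (k := kroot (1 / N) p q μ w D) hN.le hp
    (hD.trans hD2) hD1 (cB_kroot (by linarith)).ge ?_⟩
  have e : D₀ * cs p q μ w = 1 - 1 / N := div_mul_cancel₀ _ hs.ne'
  have := mul_lt_mul_of_pos_right (Set.mem_Ioi.1 hD2) hs
  simp only [cC]
  linarith

end Vale.Agent.P100.Wt
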