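import Vale.Agent.P100.Sys.Cert
import Vale.Agent.P100.Wt.Cert
import Vale.Agent.P100.Wt.Main

/-!
P100, weighted system: the polynomial certificate read in `α`, `β` gives coercivity at the dimension
`α + β + 73/40`, hence no positive solution when that is at least `2 (n + A) / (2 + A)`.
-/

open scoped Laplacian

namespace Vale.Agent.P100.Wt

open Vale.Agent.P100.Wt.Split (cA cB cν cl cz cs cb)
open Vale.Agent.P100.Sys.Cert

/-- The exponent `q` at the certificate. -/
noncomputable def cq (A B D : ℝ) : ℝ := qq A B D / a3 A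

/-- The power of `u` at the certificate. -/
noncomputable def cμ (A B D : ℝ) : ℝ := ii A B D / a3 A

/-- The shift at the certificate. -/
noncomputable def cw (A B D : ℝ) : ℝ := sg A B D / a3 A

theorem num_identities {A B D p : ℝ} (hA : 0 < A) (hB : 0 < B) (hD : 0 < D)
    (hp : p = (A + 2 * D) / B) :
    cν (cq A B D) (cμ A B D) (cw A B D) = tt A B D / (2 * a3 A) ∧
    cl (cq A B D) (cμ A B D) (cw A B D) = -ss A B D / (2 * a3 A ^ 2) ∧
    cs p (cq A B D) (cμ A B D) (cw A B D) = g0 A B D / (4 * a3 A ^ 2 * (A + 2 * D)) ∧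
    cb p (cq A B D) (cμ A B D) (cw A B D) = g1 A B D / (4 * a3 A ^ 3 * (A + 2 * D) * B) := by
  have ha : a3 A ≠ 0 := by simp only [a3]; positivity
  have hP : A + 2 * D ≠ 0 := by positivity
  have hν : cν (cq A B D) (cμ A B D) (cw A B D) = tt A B D / (2 * a3 A) := by
    simp only [cν, cq, cμ, cw, tt, ww]
    field_simp
    ring
  have hl : cl (cq A B D) (cμ A B D) (cw A B D) = -ss A B D / (2 * a3 A ^ 2) := by
    simp only [cl, cq, cμ, cw, ss, ww]
    field_simp
    ring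
  have hz : cz p (cμ A B D) (cw A B D) = -mm A B D / (a3 A * (A + 2 * D)) := by
    simp only [cz, cμ, cw, mm, hp]
    field_simp
    ring
  refine ⟨hν, hl, ?_, ?_⟩
  · rw [cs, hz, hν, g0]
    field_simp
    ring
  · rw [cb, hz, hν, hl, g1, hp, cμ, cw]
    field_simp
    ring

theorem cA_pos {A B D p : ℝ} (hA : 0 < A) (hB : 0 < B) (hD : 0 < D)
    (hp : p = (A + 2 * D) / B) (hg : 0 < g0 A B D) (hpp : 0 < pp A B D) :
    0 < cs p (cq A B D) (cμ A B D) (cw A B D) ∧
    0 < cA (1 / (nn A B D / D))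
      (kroot (1 / (nn A B D / D)) p (cq A B D) (cμ A B D) (cw A B D)
        ((1 - 1 / (nn A B D / D)) / cs p (cq A B D) (cμ A B D) (cw A B D)))
      (cq A B D) (cμ A B D) (cw A B D)
      ((1 - 1 / (nn A B D / D)) / cs p (cq A B D) (cμ A B D) (cw A B D)) := by
  obtain ⟨hν, hl, hs, hb⟩ := num_identities hA hB hD hp
  have ha : 0 < a3 A := by simp only [a3]; positivity
  have hP : 0 < A + 2 * D := by positivity
  have hs0 : 0 < cs p (cq A B D) (cμ A B D) (cw A B D) := by rw [hs]; positivity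
  refine ⟨hs0, ?_⟩
  have hN : 0 < nn A B D := by simp only [nn]; positivity
  have hk1 : 0 < k1 A B D := by simp only [k1]; positivity
  have ek : kroot (1 / (nn A B D / D)) p (cq A B D) (cμ A B D) (cw A B D)
      ((1 - 1 / (nn A B D / D)) / cs p (cq A B D) (cμ A B D) (cw A B D)) =
      -aa A B D / (a3 A * k1 A B D * g0 A B D * B) := by
    have e0 : 2 * (1 / (nn A B D / D)) + 1 + (cμ A B D - 2) / 2 - (2 - cμ A B D) =
        k0 A B D / (2 * a3 A * nn A B D) := by
      simp only [cμ, k0]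
      field_simp
      ring
    have e1 : 1 / (nn A B D / D) + 1 / 2 = k1 A B D / (2 * nn A B D) := by
      simp only [k1]
      field_simp
    have e2 : cB (1 / (nn A B D / D)) 0 p (cq A B D) (cμ A B D) (cw A B D)
        ((1 - 1 / (nn A B D / D)) / cs p (cq A B D) (cμ A B D) (cw A B D)) =
        (2 * (1 / (nn A B D / D)) + 1 + (cμ A B D - 2) / 2 - (2 - cμ A B D)) +
          (1 - 1 / (nn A B D / D)) / cs p (cq A B D) (cμ A B D) (cw A B D) *
            cb p (cq A B D) (cμ A B D) (cw A B D) := by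
      simp only [cB]; ring
    rw [kroot, e2, e0, e1, hs, hb, aa]
    field_simp
  rw [ek]
  have e0 : 1 / (nn A B D / D) + (cμ A B D - 2) / 2 * (1 - cμ A B D) =
      x0 A B D / (2 * a3 A ^ 2 * nn A B D) := by
    simp only [cμ, x0]
    field_simp
  have e1 : 1 / (nn A B D / D) + (1 - cμ A B D) / 2 = x1 A B D / (2 * a3 A * nn A B D) := by
    simp only [cμ, x1]
    field_simp
  have e2 : ∀ k Dv, cA (1 / (nn A B D / D)) k (cq A B D) (cμ A B D) (cw A B D) Dv =
      (1 / (nn A B D / D) + (cμ A B D - 2) / 2 * (1 - cμ A B D)) +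
        k * (1 / (nn A B D / D) + (1 - cμ A B D) / 2) - (1 - 1 / (nn A B D / D)) * k ^ 2 / 4 -
        Dv * cl (cq A B D) (cμ A B D) (cw A B D) ^ 2 := fun k Dv => by
    simp only [cA]; ring
  rw [e2, e0, e1, hl, hs]
  have e : x0 A B D / (2 * a3 A ^ 2 * nn A B D) +
      -aa A B D / (a3 A * k1 A B D * g0 A B D * B) * (x1 A B D / (2 * a3 A * nn A B D)) -
      (1 - 1 / (nn A B D / D)) * (-aa A B D / (a3 A * k1 A B D * g0 A B D * B)) ^ 2 / 4 -
      (1 - 1 / (nn A B D / D)) / (g0 A B D / (4 * a3 A ^ 2 * (A + 2 * D))) *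
        (-ss A B D / (2 * a3 A ^ 2)) ^ 2 =
      pp A B D / (4 * a3 A ^ 2 * nn A B D * k1 A B D ^ 2 * g0 A B D ^ 2 * B ^ 2) := by
    rw [pp]
    field_simp
    ring
  rw [e]
  positivity

/-- The parameters exist in the whole range `α + β + 73/40 ≥ N`, `p ≥ q`. -/
theorem exists_coercive {N p q : ℝ} (hN : 5 ≤ N) (hq : 0 < q) (hqp : q ≤ p) (hpq : 1 < p * q)
    (hband : N ≤ 2 * (p + q + 2) / (p * q - 1) + 73 / 40) :
    ∃ μ c d₁ d₂ d₃ d₄ : ℝ, 0 ≤ μ ∧ N < 4 + μ * (2 * (p + 1) / (p * q - 1)) ∧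
      CoerciveR N p q μ c d₁ d₂ d₃ d₄ := by
  have he : 0 < p * q - 1 := by linarith
  have hp : 1 < p := by
    by_contra h
    nlinarith [mul_le_mul (not_lt.1 h) (hqp.trans (not_lt.1 h)) hq.le zero_le_one]
  set α := 2 * (p + 1) / (p * q - 1) with hα
  set β := 2 * (q + 1) / (p * q - 1) with hβ
  have hα0 : 0 < α := by rw [hα]; positivity
  have hβ0 : 0 < β := by rw [hβ]; positivity
  have hαβ : β ≤ α := by rw [hα, hβ]; gcongr
  have hsum : α + β = 2 * (p + q + 2) / (p * q - 1) := by rw [hα, hβ]; ring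
  set t : ℝ := α / β - 1 with ht'
  have ht : 0 ≤ t := by rw [ht', sub_nonneg, le_div_iff₀ hβ0]; linarith
  set x : ℝ := α + β - 127 / 40 with hx'
  have hx : 0 ≤ x := by rw [hx']; linarith
  set B := 40 * x + 127 with hB
  set A := B * (1 + t) with hA
  set D := 40 * (t + 2) with hD
  have hB0 : 0 < B := by positivity
  have hD0 : 0 < D := by positivity
  have hA0 : 0 < A := by positivity
  have eα : A = α * D := by
    rw [hA, hB, hD, hx', ht']; field_simp; ring
  have eβ : B = β * D := by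
    rw [hB, hD, hx', ht']; field_simp; ring
  have hpβ : p * β = α + 2 := by
    rw [hα, hβ, ← mul_div_assoc, div_add' _ _ _ he.ne']; congr 1; ring
  have hqα : q * α = β + 2 := by
    rw [hα, hβ, ← mul_div_assoc, div_add' _ _ _ he.ne']; congr 1; ring
  have ep : p = (A + 2 * D) / B := by
    rw [eq_div_iff hB0.ne', eα, eβ]; linear_combination D * hpβ
  have eq : cq A B D = q := by
    rw [cq, qq, div_eq_iff (by simp only [a3]; positivity), a3, eα, eβ]
    linear_combination (-30 * α ^ 2 * D ^ 3) * hqα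
  have eN : nn A B D / D = α + β + 73 / 40 := by
    rw [nn, eα, eβ]; field_simp
  obtain ⟨hg, hpp⟩ := g0_pp_pos hx ht (A := A) (B := B) (D := D) (by rw [hA, hB]) hB hD
  obtain ⟨hs, hc⟩ := cA_pos hA0 hB0 hD0 ep hg hpp
  rw [eq, eN] at hc
  rw [eq] at hs
  obtain ⟨c, d₁, d₂, d₃, d₄, hcc⟩ := coerciveR_of_root (by linarith) hp hs hc
  have hμ : N < 4 + cμ A B D * α := by
    have e : cμ A B D * α = α + β - 2 + β * (7 * α - 6 * β) / (2 * α ^ 2) := by
      rw [cμ, ii, a3, eα, eβ]; field_simp; ring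
    have : β * (7 * α - 6 * β) / (2 * α ^ 2) ≥ 0 :=
      div_nonneg (mul_nonneg hβ0.le (by linarith)) (by positivity)
    linarith
  refine ⟨cμ A B D, c, d₁, d₂, d₃, d₄, ?_, hμ, hcc.mono (by linarith) ?_⟩
  · by_contra h
    nlinarith [mul_nonpos_of_nonpos_of_nonneg (not_le.1 h).le hα0.le]
  · rw [hsum]; exact hband

/-- No positive solution outside the band of width `7/40` at the critical hyperbola. -/
theorem no_solution_band {n : ℕ} (hn : 5 ≤ n) {A p q : ℝ} (hA : -2 < A) (hA0 : A ≤ 0) (hp : 0 < p)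
    (hq : 0 < q) (hpq : 1 < p * q)
    (hband : 2 * ((n : ℝ) + A) / (2 + A) ≤ 2 * (p + q + 2) / (p * q - 1) + 73 / 40) :
    ¬ ∃ u v : EuclideanSpace ℝ (Fin n) → ℝ, Continuous u ∧ Continuous v ∧
      (∀ x, 0 < u x ∧ 0 < v x) ∧
      ∀ x ≠ 0, ContDiffAt ℝ 2 u x ∧ ContDiffAt ℝ 2 v x ∧
        -Δ u x = ‖x‖ ^ A * v x ^ p ∧ -Δ v x = ‖x‖ ^ A * u x ^ q := by
  have hN : 5 ≤ 2 * ((n : ℝ) + A) / (2 + A) := by
    have : (5 : ℝ) ≤ n := by exact_mod_cast hn
    rw [le_div_iff₀ (by linarith)]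
    linarith
  rcases le_total q p with h | h
  · obtain ⟨μ, c, d₁, d₂, d₃, d₄, hμ, hσ, hc⟩ := exists_coercive hN hq h hpq hband
    exact no_solution_of_coercive hn hA hA0 hp hq hpq hμ hσ hc
  · obtain ⟨μ, c, d₁, d₂, d₃, d₄, hμ, hσ, hc⟩ := exists_coercive hN hp h (by linarith)
      (by rw [mul_comm q p, add_comm q p]; exact hband)
    rintro ⟨u, v, hu, hv, hpos, he⟩
    exact no_solution_of_coercive hn hA hA0 hq hp (by linarith) hμ hσ hc
      ⟨v, u, hv, hu, fun x => ⟨(hpos x).2, (hpos x).1⟩, fun x hx =>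
        ⟨(he x hx).2.1, (he x hx).1, (he x hx).2.2.2, (he x hx).2.2.1⟩⟩

end Vale.Agent.P100.Wt
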