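import Vale.Agent.P100.Sys.Bochner
import Vale.Agent.P100.Wt.Radial
import Vale.Agent.P100.Wt.Gamma

/-!
P100, weighted system: the integral identity. The Bochner identity for `f` tested with
`η e^{-μ f} |x|^{-A}`, plus the divergence of
`η e^{-μ f} (|x|^{-A} (c |Df|² Df - A/2 |Df|² x/|x|²) + (d₁ E₁ + d₃ E₂) Df + (d₂ E₁ + d₄ E₂) Dg)`.
-/

open MeasureTheory Filter Topology Set Metric

namespace Vale.Agent.P100.Wt

open Vale.Agent.P100.Sys

variable {n : ℕ} {f g η : EuclideanSpace ℝ (Fin n) → ℝ}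

theorem alg_boch (H : Fin n → Fin n → ℝ) (hH : ∀ i j, H i j = H j i) (a b z dη : Fin n → ℝ)
    (A μ p W η P₁ : ℝ) :
    ∑ j, ((∑ i, (H j i * (W * (dη i - η * (μ * a i + A * z i))) * a j +
          H j i * (η * W) * H j i)) +
        (2 * (∑ i, a i * H j i) + P₁ * (a j - p * b j + A * z j)) * (η * W) * a j) =
      W * (η * (fr H + (2 - μ) * qf H a - A * (∑ i, z i * ∑ j, H i j * a j) +
          P₁ * (ip a a - p * ip a b + A * ip z a)) +
        ∑ i, dη i * ∑ j, H i j * a j) := by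
  have h1 : ∑ j, ∑ i, H j i * (W * (dη i - η * (μ * a i + A * z i))) * a j =
      W * (∑ i, dη i * ∑ j, H i j * a j) - W * μ * η * qf H a -
        W * η * A * (∑ i, z i * ∑ j, H i j * a j) := by
    simp only [qf, Finset.mul_sum]
    rw [Finset.sum_comm, ← Finset.sum_sub_distrib, ← Finset.sum_sub_distrib]
    refine Finset.sum_congr rfl fun i _ => ?_
    rw [← Finset.sum_sub_distrib, ← Finset.sum_sub_distrib]
    exact Finset.sum_congr rfl fun j _ => by rw [hH j i]; ring
  have h2 : ∑ j, ∑ i, H j i * (η * W) * H j i = η * W * fr H := by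
    simp only [fr, Finset.mul_sum]
    exact Finset.sum_congr rfl fun i _ => Finset.sum_congr rfl fun j _ => by ring
  have h3 : ∑ j, (2 * ∑ i, a i * H j i) * (η * W) * a j = 2 * η * W * qf H a := by
    simp only [qf, Finset.mul_sum, Finset.sum_mul]
    exact Finset.sum_congr rfl fun i _ => Finset.sum_congr rfl fun j _ => by ring
  have h4 : ∑ j, P₁ * (a j - p * b j + A * z j) * (η * W) * a j =
      η * W * (P₁ * (ip a a - p * ip a b + A * ip z a)) := by
    simp only [ip, Finset.mul_sum, ← Finset.sum_sub_distrib, ← Finset.sum_add_distrib]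
    exact Finset.sum_congr rfl fun j _ => by ring
  simp only [add_mul, Finset.sum_add_distrib, h1, h2, h3, h4]
  ring

theorem alg_field (H : Fin n → Fin n → ℝ) (hH : ∀ i j, H i j = H j i) (a b z dη kk zz : Fin n → ℝ)
    (A μ p q c d₁ d₂ d₃ d₄ W e η S P₁ P₂ : ℝ) (htr : ∑ i, H i i = ip a a + P₁)
    (hK : ∑ i, kk i = ip b b + P₂) (hz : ∑ i, zz i = ((n : ℝ) - 2) * ip z z) (hW : e * S = W)
    (E₁ E₂ : ℝ) (h₁ : e * E₁ = W * P₁) (h₂ : e * E₂ = W * P₂) :
    ∑ i, (e * (S * ip a a * (c * a i - A / 2 * z i) + (d₁ * E₁ + d₃ * E₂) * a i +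
          (d₂ * E₁ + d₄ * E₂) * b i) * dη i +
        (-μ * (e * a i) * (S * ip a a * (c * a i - A / 2 * z i) + (d₁ * E₁ + d₃ * E₂) * a i +
            (d₂ * E₁ + d₄ * E₂) * b i) +
          e * (((-A * S * z i) * ip a a + S * (2 * ∑ j, a j * H i j)) * (c * a i - A / 2 * z i) +
            S * ip a a * (c * H i i - A / 2 * zz i) +
            (d₁ * (E₁ * (a i - p * b i)) + d₃ * (E₂ * (b i - q * a i))) * a i +
            (d₁ * E₁ + d₃ * E₂) * H i i +
            (d₂ * (E₁ * (a i - p * b i)) + d₄ * (E₂ * (b i - q * a i))) * b i +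
            (d₂ * E₁ + d₄ * E₂) * kk i)) * η) =
      W * (η * (jetS p q μ c d₁ d₂ d₃ d₄ (gam A H a z) (qfw A H a z) (ip a a) (ip b b) (ip a b)
            P₁ P₂ -
          (fr H + (2 - μ) * qf H a - A * (∑ i, z i * ∑ j, H i j * a j) +
            P₁ * (ip a a - p * ip a b + A * ip z a))) +
        ∑ i, dη i * (ip a a * (c * a i - A / 2 * z i) + (d₁ * P₁ + d₃ * P₂) * a i +
          (d₂ * P₁ + d₄ * P₂) * b i)) := by
  have hs : ∀ r : Fin n → ℝ, ∑ i, (∑ j, a j * H i j) * r i = ∑ i, r i * ∑ j, H i j * a j :=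
    fun r => Finset.sum_congr rfl fun i _ => by
      rw [mul_comm]; congr 1; exact Finset.sum_congr rfl fun j _ => mul_comm _ _
  have hq : ∑ i, a i * ∑ j, H i j * a j = qf H a := by
    simp only [qf, Finset.mul_sum]
    exact Finset.sum_congr rfl fun i _ => Finset.sum_congr rfl fun j _ => by ring
  set X := ip a a with hX
  set M := d₁ * E₁ + d₃ * E₂ with hM
  set L := d₂ * E₁ + d₄ * E₂ with hL
  have expand : ∑ i, (e * (S * X * (c * a i - A / 2 * z i) + M * a i + L * b i) * dη i +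
      (-μ * (e * a i) * (S * X * (c * a i - A / 2 * z i) + M * a i + L * b i) +
        e * (((-A * S * z i) * X + S * (2 * ∑ j, a j * H i j)) * (c * a i - A / 2 * z i) +
          S * X * (c * H i i - A / 2 * zz i) +
          (d₁ * (E₁ * (a i - p * b i)) + d₃ * (E₂ * (b i - q * a i))) * a i + M * H i i +
          (d₂ * (E₁ * (a i - p * b i)) + d₄ * (E₂ * (b i - q * a i))) * b i + L * kk i)) * η) =
      (e * S) * X * c * (∑ i, dη i * a i) - (e * S) * X * (A / 2) * (∑ i, dη i * z i) +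
      e * M * (∑ i, dη i * a i) + e * L * (∑ i, dη i * b i) +
      η * (-μ * ((e * S) * X * (c * (∑ i, a i * a i) - A / 2 * (∑ i, z i * a i)) +
          e * M * (∑ i, a i * a i) + e * L * (∑ i, a i * b i)) +
        (e * S) * (-A * X * (c * (∑ i, z i * a i) - A / 2 * ∑ i, z i * z i)) +
        (e * S) * (2 * c * (∑ i, (∑ j, a j * H i j) * a i) -
          A * ∑ i, (∑ j, a j * H i j) * z i) +
        (e * S) * X * (c * (∑ i, H i i) - A / 2 * ∑ i, zz i) +
        e * E₁ * d₁ * ((∑ i, a i * a i) - p * ∑ i, a i * b i) +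
        e * E₂ * d₃ * ((∑ i, a i * b i) - q * ∑ i, a i * a i) + e * M * (∑ i, H i i) +
        e * E₁ * d₂ * ((∑ i, a i * b i) - p * ∑ i, b i * b i) +
        e * E₂ * d₄ * ((∑ i, b i * b i) - q * ∑ i, a i * b i) + e * L * ∑ i, kk i) := by
    simp only [Finset.mul_sum, ← Finset.sum_add_distrib, ← Finset.sum_sub_distrib]
    exact Finset.sum_congr rfl fun i _ => by simp only [← Finset.mul_sum]; ring
  have hdx : ∑ i, dη i * (X * (c * a i - A / 2 * z i) + (d₁ * P₁ + d₃ * P₂) * a i +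
      (d₂ * P₁ + d₄ * P₂) * b i) = (X * c + (d₁ * P₁ + d₃ * P₂)) * (∑ i, dη i * a i) -
        X * (A / 2) * (∑ i, dη i * z i) + (d₂ * P₁ + d₄ * P₂) * (∑ i, dη i * b i) := by
    simp only [Finset.mul_sum, ← Finset.sum_add_distrib, ← Finset.sum_sub_distrib]
    exact Finset.sum_congr rfl fun i _ => by ring
  have eM : e * M = W * (d₁ * P₁ + d₃ * P₂) := by
    rw [hM]; linear_combination d₁ * h₁ + d₃ * h₂
  have eL : e * L = W * (d₂ * P₁ + d₄ * P₂) := by
    rw [hL]; linear_combination d₂ * h₁ + d₄ * h₂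
  rw [expand, hs a, hs z, hq, htr, hK, hz, hW, eM, eL, h₁, h₂, hdx, gam, qfw, jetS, htr]
  simp only [hX, ip]
  ring

theorem identity {A p q μ c d₁ d₂ d₃ d₄ : ℝ}
    (hf : ContDiffOn ℝ 2 f {0}ᶜ) (hg : ContDiffOn ℝ 2 g {0}ᶜ)
    (hlf : ∀ x ≠ 0, lap f x = (∑ i, pd i f x ^ 2) + rw' A x * Real.exp (f x - p * g x))
    (hlg : ∀ x ≠ 0, lap g x = (∑ i, pd i g x ^ 2) + rw' A x * Real.exp (g x - q * f x))
    (hη : ContDiff ℝ 2 η) (hc : HasCompactSupport η) (hs : tsupport η ⊆ {0}ᶜ) :
    ∃ J : EuclideanSpace ℝ (Fin n) → ℝ, Integrable J ∧ ∫ x, J x = 0 ∧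
      (∀ x ∉ tsupport η, J x = 0) ∧
      ∀ x ≠ 0, J x = rw' (-A) x * Real.exp (-μ * f x) *
        (η x * jetS p q μ c d₁ d₂ d₃ d₄
            (gam A (fun i j => pd i (pd j f) x) (fun i => pd i f x) (fun i => zc i x))
            (qfw A (fun i j => pd i (pd j f) x) (fun i => pd i f x) (fun i => zc i x))
            (ip (fun i => pd i f x) fun i => pd i f x) (ip (fun i => pd i g x) fun i => pd i g x)
            (ip (fun i => pd i f x) fun i => pd i g x)
            (rw' A x * Real.exp (f x - p * g x)) (rw' A x * Real.exp (g x - q * f x)) +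
          ∑ i, pd i η x * ((∑ j, pd i (pd j f) x * pd j f x) +
            (ip (fun i => pd i f x) (fun i => pd i f x) * (c * pd i f x - A / 2 * zc i x) +
              (d₁ * (rw' A x * Real.exp (f x - p * g x)) +
                d₃ * (rw' A x * Real.exp (g x - q * f x))) * pd i f x +
              (d₂ * (rw' A x * Real.exp (f x - p * g x)) +
                d₄ * (rw' A x * Real.exp (g x - q * f x))) * pd i g x))) := by
  have hΩ : IsOpen ({0}ᶜ : Set (EuclideanSpace ℝ (Fin n))) := isOpen_compl_singleton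
  set Ω : Set (EuclideanSpace ℝ (Fin n)) := {0}ᶜ with hΩdef
  have hf1 : ∀ i, ContDiffOn ℝ 1 (pd i f) Ω := contDiffOn_pd hΩ hf (by norm_num)
  have hg1 : ∀ i, ContDiffOn ℝ 1 (pd i g) Ω := contDiffOn_pd hΩ hg (by norm_num)
  have hf' : ContDiffOn ℝ 1 f Ω := hf.of_le (by norm_num)
  have hg' : ContDiffOn ℝ 1 g Ω := hg.of_le (by norm_num)
  set E₁ : EuclideanSpace ℝ (Fin n) → ℝ := fun x => Real.exp (f x - p * g x) with hE₁
  set E₂ : EuclideanSpace ℝ (Fin n) → ℝ := fun x => Real.exp (g x - q * f x) with hE₂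
  set X : EuclideanSpace ℝ (Fin n) → ℝ := fun x => ∑ j, pd j f x * pd j f x with hX
  set e : EuclideanSpace ℝ (Fin n) → ℝ := fun x => Real.exp (-μ * f x) with he
  set S : EuclideanSpace ℝ (Fin n) → ℝ := rw' (-A) with hS
  set R : EuclideanSpace ℝ (Fin n) → ℝ := rw' A with hR
  have hE₁c : ContDiffOn ℝ 1 E₁ Ω := (hf'.sub (contDiffOn_const.mul hg')).exp
  have hE₂c : ContDiffOn ℝ 1 E₂ Ω := (hg'.sub (contDiffOn_const.mul hf')).exp
  have hec : ContDiffOn ℝ 2 e Ω := (contDiffOn_const.mul hf).exp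
  have hSc : ContDiffOn ℝ 2 S Ω := contDiffOn_rw' (-A)
  have hRc : ContDiffOn ℝ 1 R Ω := contDiffOn_rw' A
  have hXc : ContDiffOn ℝ 1 X Ω := ContDiffOn.sum fun j _ => (hf1 j).mul (hf1 j)
  have hlapc : ContDiffOn ℝ 1 (lap f) Ω :=
    (hXc.add (hRc.mul hE₁c)).congr fun x hx => by simp [hlf x hx, hX, hR, hE₁, pow_two]
  -- the vector field
  set V : Fin n → EuclideanSpace ℝ (Fin n) → ℝ :=
    fun i x => e x * (S x * X x * (c * pd i f x - A / 2 * zc i x) +
      (d₁ * E₁ x + d₃ * E₂ x) * pd i f x + (d₂ * E₁ x + d₄ * E₂ x) * pd i g x) with hV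
  have hVc : ∀ i, ContDiffOn ℝ 1 (V i) Ω := fun i =>
    (hec.of_le (by norm_num)).mul (((((hSc.of_le (by norm_num)).mul hXc).mul
      ((contDiffOn_const.mul (hf1 i)).sub (contDiffOn_const.mul (contDiffOn_zc i)))).add
        (((contDiffOn_const.mul hE₁c).add (contDiffOn_const.mul hE₂c)).mul (hf1 i))).add
      (((contDiffOn_const.mul hE₁c).add (contDiffOn_const.mul hE₂c)).mul (hg1 i)))
  set ψ : EuclideanSpace ℝ (Fin n) → ℝ := fun x => η x * (S x * e x) with hψ
  have hψs : tsupport ψ ⊆ tsupport η := tsupport_mul_subset_left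
  have hψc : HasCompactSupport ψ := hc.of_isClosed_subset (isClosed_tsupport _) hψs
  have hψd : ContDiff ℝ 2 ψ :=
    contDiff_of_tsupport_subset hΩ (hη.contDiffOn.mul (hSc.mul hec)) (hψs.trans hs)
  -- the integrands
  set T : Fin n → EuclideanSpace ℝ (Fin n) → ℝ := fun j x =>
    (∑ i, (pd j (pd i f) x * pd i ψ x * pd j f x + pd j (pd i f) x * ψ x * pd j (pd i f) x)) +
      pd j (lap f) x * ψ x * pd j f x with hT
  set U : Fin n → EuclideanSpace ℝ (Fin n) → ℝ :=
    fun i x => V i x * pd i η x + pd i (V i) x * η x with hU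
  have hcd : ∀ i j, ContinuousOn (pd i (pd j f)) Ω := fun i j => continuousOn_pd hΩ (hf1 j) le_rfl i
  have hcf : ∀ i, ContinuousOn (pd i f) Ω := fun i => (hf1 i).continuousOn
  have hcη : ∀ i, ContinuousOn (pd i η) Ω := fun i =>
    continuousOn_pd hΩ hη.contDiffOn (by norm_num) i
  have hcψ : ∀ i, ContinuousOn (pd i ψ) Ω := fun i =>
    continuousOn_pd hΩ hψd.contDiffOn (by norm_num) i
  have z1 : ∀ x ∉ tsupport η, ∀ i, pd i η x = 0 := fun x hx i => pd_eq_zero_of_notMem i hx
  have z2 : ∀ x ∉ tsupport η, ∀ i, pd i ψ x = 0 := fun x hx i =>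
    pd_eq_zero_of_notMem i fun h => hx (hψs h)
  have z3 : ∀ x ∉ tsupport η, η x = 0 := fun x hx => image_eq_zero_of_notMem_tsupport hx
  have z4 : ∀ x ∉ tsupport η, ψ x = 0 := fun x hx => by simp [hψ, z3 x hx]
  have i1 : ∀ j i, Integrable fun x => pd j (pd i f) x * pd i ψ x * pd j f x := fun j i =>
    integrable_of_support hΩ hc hs (((hcd j i).mul (hcψ i)).mul (hcf j))
      fun x hx => by simp [z2 x hx]
  have i2 : ∀ j i, Integrable fun x => pd j (pd i f) x * ψ x * pd j (pd i f) x := fun j i =>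
    integrable_of_support hΩ hc hs (((hcd j i).mul hψd.continuous.continuousOn).mul (hcd j i))
      fun x hx => by simp [z4 x hx]
  have i3 : ∀ j, Integrable fun x => pd j (lap f) x * ψ x * pd j f x := fun j =>
    integrable_of_support hΩ hc hs (((continuousOn_pd hΩ hlapc le_rfl j).mul
      hψd.continuous.continuousOn).mul (hcf j)) fun x hx => by simp [z4 x hx]
  have i4 : ∀ i, Integrable fun x => V i x * pd i η x := fun i =>
    integrable_of_support hΩ hc hs ((hVc i).continuousOn.mul (hcη i))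
      fun x hx => by simp [z1 x hx]
  have i5 : ∀ i, Integrable fun x => pd i (V i) x * η x := fun i =>
    integrable_of_support hΩ hc hs ((continuousOn_pd hΩ (hVc i) le_rfl i).mul
      hη.continuous.continuousOn) fun x hx => by simp [z3 x hx]
  have iT : ∀ j, Integrable (T j) := fun j =>
    (integrable_finsetSum _ fun i _ => (i1 j i).add (i2 j i)).add (i3 j)
  have iU : ∀ i, Integrable (U i) := fun i => (i4 i).add (i5 i)
  have eT : ∀ j, ∫ x, T j x = 0 := fun j => by
    rw [hT, integral_add (integrable_finsetSum _ fun i _ => by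
        exact (i1 j i).add (i2 j i)) (i3 j),
      integral_finsetSum _ fun i _ => by exact (i1 j i).add (i2 j i)]
    simp only [fun i => integral_add (i1 j i) (i2 j i)]
    exact bochner hΩ hf hlapc hψd hψc (hψs.trans hs) j
  have eU : ∀ i, ∫ x, U i x = 0 := fun i => by
    rw [hU, integral_add (i4 i) (i5 i),
      integral_pd_mul hΩ (hVc i) (hη.of_le (by norm_num)) hc hs i]
    ring
  refine ⟨fun x => (∑ j, T j x) + ∑ i, U i x,
    (integrable_finsetSum _ fun j _ => iT j).add (integrable_finsetSum _ fun i _ => iU i), ?_,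
    fun x hx => ?_, fun x hx0 => ?_⟩
  · rw [integral_add (integrable_finsetSum _ fun j _ => iT j)
      (integrable_finsetSum _ fun i _ => iU i), integral_finsetSum _ fun j _ => iT j,
      integral_finsetSum _ fun i _ => iU i]
    simp [eT, eU]
  · simp [hT, hU, z1 x hx, z2 x hx, z3 x hx, z4 x hx]
  have hx : x ∈ Ω := hx0
  have hxn := hΩ.mem_nhds hx
  have df : DifferentiableAt ℝ f x := (hf.contDiffAt hxn).differentiableAt (by norm_num)
  have dg : DifferentiableAt ℝ g x := (hg.contDiffAt hxn).differentiableAt (by norm_num)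
  have dfi : ∀ i, DifferentiableAt ℝ (pd i f) x := fun i =>
    ((hf1 i).contDiffAt hxn).differentiableAt (by norm_num)
  have dgi : ∀ i, DifferentiableAt ℝ (pd i g) x := fun i =>
    ((hg1 i).contDiffAt hxn).differentiableAt (by norm_num)
  have dzi : ∀ i, DifferentiableAt ℝ (zc i) x := fun i =>
    (((contDiffOn_zc (k := 1) i) : ContDiffOn ℝ 1 (zc i) Ω).contDiffAt hxn).differentiableAt
      (by norm_num)
  have dE₁ : DifferentiableAt ℝ E₁ x := (hE₁c.contDiffAt hxn).differentiableAt (by norm_num)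
  have dE₂ : DifferentiableAt ℝ E₂ x := (hE₂c.contDiffAt hxn).differentiableAt (by norm_num)
  have dX : DifferentiableAt ℝ X x := (hXc.contDiffAt hxn).differentiableAt (by norm_num)
  have de : DifferentiableAt ℝ e x := (hec.contDiffAt hxn).differentiableAt (by norm_num)
  have dS : DifferentiableAt ℝ S x := (hSc.contDiffAt hxn).differentiableAt (by norm_num)
  have dR : DifferentiableAt ℝ R x := (hRc.contDiffAt hxn).differentiableAt (by norm_num)
  have pE₁ : ∀ i, pd i E₁ x = E₁ x * (pd i f x - p * pd i g x) := fun i => by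
    rw [hE₁, pd_exp (df.fun_sub (dg.const_mul p)), pd_sub df (dg.const_mul p), pd_const_mul dg]
  have pE₂ : ∀ i, pd i E₂ x = E₂ x * (pd i g x - q * pd i f x) := fun i => by
    rw [hE₂, pd_exp (dg.fun_sub (df.const_mul q)), pd_sub dg (df.const_mul q), pd_const_mul df]
  have pe : ∀ i, pd i e x = -μ * (e x * pd i f x) := fun i => by
    rw [he, pd_exp (df.const_mul _), pd_const_mul df]; ring
  have pS : ∀ i, pd i S x = -A * S x * zc i x := fun i => pd_rw' (-A) hx0 i
  have pR : ∀ i, pd i R x = A * R x * zc i x := fun i => pd_rw' A hx0 i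
  have pX : ∀ i, pd i X x = 2 * ∑ j, pd j f x * pd i (pd j f) x := fun i => by
    rw [hX, pd_sum _ fun j _ => (dfi j).fun_mul (dfi j), Finset.mul_sum]
    exact Finset.sum_congr rfl fun j _ => by rw [pd_mul (dfi j) (dfi j)]; ring
  have plap : ∀ j, pd j (lap f) x = 2 * (∑ i, pd i f x * pd j (pd i f) x) +
      R x * E₁ x * (pd j f x - p * pd j g x + A * zc j x) := fun j => by
    rw [pd_congr (G := fun y => X y + R y * E₁ y) (Filter.eventually_of_mem hxn fun y hy => by
      simp [hlf y hy, hX, hR, hE₁, pow_two]), pd_add dX (dR.fun_mul dE₁), pd_mul dR dE₁, pX, pE₁,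
      pR]
    ring
  have pψ : ∀ i, pd i ψ x =
      (S x * e x) * (pd i η x - η x * (μ * pd i f x + A * zc i x)) := fun i => by
    rw [hψ, pd_mul (hη.differentiable (by norm_num) x) (dS.fun_mul de), pd_mul dS de, pe, pS]
    ring
  have pV : ∀ i, pd i (V i) x = -μ * (e x * pd i f x) * (S x * X x * (c * pd i f x - A / 2 * zc i x) +
        (d₁ * E₁ x + d₃ * E₂ x) * pd i f x + (d₂ * E₁ x + d₄ * E₂ x) * pd i g x) +
      e x * (((-A * S x * zc i x) * X x + S x * (2 * ∑ j, pd j f x * pd i (pd j f) x)) *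
          (c * pd i f x - A / 2 * zc i x) +
        S x * X x * (c * pd i (pd i f) x - A / 2 * pd i (zc i) x) +
        (d₁ * (E₁ x * (pd i f x - p * pd i g x)) + d₃ * (E₂ x * (pd i g x - q * pd i f x))) *
          pd i f x + (d₁ * E₁ x + d₃ * E₂ x) * pd i (pd i f) x +
        (d₂ * (E₁ x * (pd i f x - p * pd i g x)) + d₄ * (E₂ x * (pd i g x - q * pd i f x))) *
          pd i g x + (d₂ * E₁ x + d₄ * E₂ x) * pd i (pd i g) x) := fun i => by
    have dA : DifferentiableAt ℝ (fun y => d₁ * E₁ y + d₃ * E₂ y) x :=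
      (dE₁.const_mul _).fun_add (dE₂.const_mul _)
    have dB : DifferentiableAt ℝ (fun y => d₂ * E₁ y + d₄ * E₂ y) x :=
      (dE₁.const_mul _).fun_add (dE₂.const_mul _)
    have dC : DifferentiableAt ℝ (fun y => c * pd i f y - A / 2 * zc i y) x :=
      ((dfi i).const_mul _).fun_sub ((dzi i).const_mul _)
    rw [hV, pd_mul de ((((dS.fun_mul dX).fun_mul dC).fun_add (dA.fun_mul (dfi i))).fun_add
        (dB.fun_mul (dgi i))),
      pd_add (((dS.fun_mul dX).fun_mul dC).fun_add (dA.fun_mul (dfi i))) (dB.fun_mul (dgi i)),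
      pd_add ((dS.fun_mul dX).fun_mul dC) (dA.fun_mul (dfi i)),
      pd_mul (dS.fun_mul dX) dC, pd_mul dS dX, pd_mul dA (dfi i), pd_mul dB (dgi i),
      pd_sub ((dfi i).const_mul _) ((dzi i).const_mul _), pd_const_mul (dfi i),
      pd_const_mul (dzi i), pd_add (dE₁.const_mul _) (dE₂.const_mul _),
      pd_add (dE₁.const_mul _) (dE₂.const_mul _), pd_const_mul dE₁, pd_const_mul dE₂,
      pd_const_mul dE₁, pd_const_mul dE₂, pe, pS, pX, pE₁, pE₂]
    ring
  have hsym : ∀ i j, pd i (pd j f) x = pd j (pd i f) x := pd_symm hΩ hf hx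
  have htr : ∑ i, pd i (pd i f) x =
      ip (fun i => pd i f x) (fun i => pd i f x) + R x * E₁ x := by
    rw [← lap, hlf x hx0]; simp [ip, hR, hE₁, pow_two]
  have htr' : ∑ i, pd i (pd i g) x =
      ip (fun i => pd i g x) (fun i => pd i g x) + R x * E₂ x := by
    rw [← lap, hlg x hx0]; simp [ip, hR, hE₂, pow_two]
  have hSR : S x * R x = 1 := by
    rw [hS, hR, rw'_mul _ _ hx0, neg_add_cancel, rw', zero_div, Real.rpow_zero]
  have eA := alg_boch (fun i j => pd i (pd j f) x) hsym (fun i => pd i f x) (fun i => pd i g x)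
    (fun i => zc i x) (fun i => pd i η x) A μ p (S x * e x) (η x) (R x * E₁ x)
  have eB := alg_field (fun i j => pd i (pd j f) x) hsym (fun i => pd i f x) (fun i => pd i g x)
    (fun i => zc i x) (fun i => pd i η x) (fun i => pd i (pd i g) x) (fun i => pd i (zc i) x)
    A μ p q c d₁ d₂ d₃ d₄ (S x * e x) (e x) (η x) (S x) (R x * E₁ x) (R x * E₂ x) htr htr'
    (sum_pd_zc hx0) (mul_comm _ _) (E₁ x) (E₂ x)
    (by linear_combination (-(e x * E₁ x)) * hSR) (by linear_combination (-(e x * E₂ x)) * hSR)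
  simp only [hT, hU, plap, pV, pψ]
  simp only [hψ, hV, hX, hE₁, hE₂, he, hS, hR, ip] at eA eB ⊢
  rw [eA, eB]
  simp only [add_mul, mul_add, Finset.sum_add_distrib]
  ring

end Vale.Agent.P100.Wt
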