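import Vale.Agent.P100.Sys.Jet

/-!
P100, the exact splitting: with `d₄ = -d₂ = D` and `d₁`, `d₃` fixed by a shift `w` the quartic splits
exactly into two squares and a binary form in `|a|²`, `P₁`.
-/

namespace Vale.Agent.P100.Wt.Split

open Vale.Agent.P100.Sys

/-- The weight of `P₁` in the square. -/
noncomputable def cν (q μ w : ℝ) : ℝ := (q + μ - 4 * w - 1) / 2

/-- The weight of `|a|²` in the square. -/
noncomputable def cl (q μ w : ℝ) : ℝ := ((q + μ - 4 * w) * (1 - q - μ) - 2 * w ^ 2) / 2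

/-- The slope of `d₁` in `D`. -/
noncomputable def cz (p μ w : ℝ) : ℝ := (μ - 1 + 2 * w * (p - 1)) / p

/-- The slope of the `P₁²` coefficient in `D`. -/
noncomputable def cs (p q μ w : ℝ) : ℝ := cz p μ w - cν q μ w ^ 2

/-- The slope of the `|a|² P₁` coefficient in `D`. -/
noncomputable def cb (p q μ w : ℝ) : ℝ :=
  (2 - μ) * cz p μ w - w ^ 2 * (p - 1) - 2 * cl q μ w * cν q μ w

/-- The coefficient of `|a|⁴`. -/
noncomputable def cA (h k q μ w D : ℝ) : ℝ :=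
  (1 + k) * h - (1 - h) * k ^ 2 / 4 + (k - 2 + μ) / 2 * (1 - μ) - D * cl q μ w ^ 2

/-- The coefficient of `|a|² P₁`. -/
noncomputable def cB (h k p q μ w D : ℝ) : ℝ :=
  (2 + k) * h + 1 + (k - 2 + μ) / 2 - (2 - μ) + D * cb p q μ w

/-- The coefficient of `P₁²`. -/
noncomputable def cC (h p q μ w D : ℝ) : ℝ := h - 1 + D * cs p q μ w

variable {n : ℕ}

/-- The trace bound for the Hessian terms. -/
theorem trace_bound (H : Fin n → Fin n → ℝ) (a : Fin n → ℝ) (k : ℝ) :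
    (∑ i, H i i + k / 2 * ip a a) ^ 2 / n - k ^ 2 / 4 * ip a a ^ 2 ≤ fr H + k * qf H a := by
  rcases Nat.eq_zero_or_pos n with rfl | hn
  · simp [fr, qf, ip]
  set G : Fin n → Fin n → ℝ := fun i j => H i j + k / 2 * (a i * a j) with hG
  have e1 : fr G = fr H + k * qf H a + k ^ 2 / 4 * ip a a ^ 2 := by
    rw [fr, fr, qf, sq (ip a a), ip, Finset.sum_mul_sum]
    simp only [hG, Finset.mul_sum, ← Finset.sum_add_distrib]
    exact Finset.sum_congr rfl fun i _ => Finset.sum_congr rfl fun j _ => by ring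
  have e2 : ∑ i, G i i = ∑ i, H i i + k / 2 * ip a a := by
    simp only [hG, ip, Finset.sum_add_distrib, Finset.mul_sum]
  have h1 : (∑ i, G i i) ^ 2 ≤ n * ∑ i, G i i ^ 2 := by
    simpa using sq_sum_le_card_mul_sum_sq (s := (Finset.univ : Finset (Fin n))) (f := fun i => G i i)
  have h2 : ∑ i, G i i ^ 2 ≤ fr G := Finset.sum_le_sum fun i _ =>
    Finset.single_le_sum (f := fun j => G i j ^ 2) (fun j _ => sq_nonneg _) (Finset.mem_univ i)
  rw [sub_le_iff_le_add, ← e1, ← e2, div_le_iff₀ (by exact_mod_cast hn), mul_comm]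
  exact h1.trans (mul_le_mul_of_nonneg_left h2 (Nat.cast_nonneg n))

/-- The exact splitting, with the scalar invariants of the jet as variables. -/
theorem cert_split {p q μ w k h D : ℝ} (F Qa X Y Z P₁ P₂ : ℝ) (hp : p ≠ 0) :
    F + (2 - μ) * Qa + P₁ * (X - p * Z) +
      (k - 2 + μ) / 2 * (2 * Qa + X * (X + P₁) - μ * X ^ 2) +
      (D * cz p μ w - 1) * (P₁ * (X - p * Z) + P₁ * (X + P₁) - μ * P₁ * X) +
      (-D) * (P₁ * (Z - p * Y) + P₁ * (Y + P₂) - μ * P₁ * Z) +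
      (D * (q + μ - 4 * w)) * (P₂ * (Z - q * X) + P₂ * (X + P₁) - μ * P₂ * X) +
      D * (P₂ * (Y - q * Z) + P₂ * (Y + P₂) - μ * P₂ * Z) =
    F + k * Qa + (cA h k q μ w D - h - k * h + (1 - h) * k ^ 2 / 4) * X ^ 2 +
      (cB h k p q μ w D - 2 * h - k * h) * (X * P₁) + (cC h p q μ w D - h) * P₁ ^ 2 +
      D * (P₂ + cν q μ w * P₁ + cl q μ w * X) ^ 2 +
      D * ((p - 1) * P₁ + 2 * P₂) * (Y - 2 * w * Z + w ^ 2 * X) := by
  simp only [cA, cB, cC, cs, cb, cz, cν, cl]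
  field_simp
  ring

theorem cert_mul {γ A C D ν l M : ℝ} (X P₁ P₂ : ℝ) (hγ : 0 ≤ γ) (hA : γ * M ≤ A) (hC : γ * M ≤ C)
    (hD : γ * M ≤ D) (h1 : 3 * l ^ 2 ≤ M) (h2 : 3 * ν ^ 2 ≤ M) (h3 : 3 ≤ M) :
    γ * P₂ ^ 2 ≤ A * X ^ 2 + C * P₁ ^ 2 + D * (P₂ + ν * P₁ + l * X) ^ 2 := by
  set K := P₂ + ν * P₁ + l * X with hK
  have hP : P₂ ^ 2 ≤ 3 * (K ^ 2 + ν ^ 2 * P₁ ^ 2 + l ^ 2 * X ^ 2) := by
    have : P₂ = K - ν * P₁ - l * X := by rw [hK]; ring
    rw [this]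
    nlinarith only [sq_nonneg (K + ν * P₁), sq_nonneg (K + l * X), sq_nonneg (ν * P₁ - l * X)]
  have b := mul_le_mul_of_nonneg_left hP hγ
  have c1 : γ * (3 * l ^ 2) * X ^ 2 ≤ A * X ^ 2 :=
    mul_le_mul_of_nonneg_right ((mul_le_mul_of_nonneg_left h1 hγ).trans hA) (sq_nonneg X)
  have c2 : γ * (3 * ν ^ 2) * P₁ ^ 2 ≤ C * P₁ ^ 2 :=
    mul_le_mul_of_nonneg_right ((mul_le_mul_of_nonneg_left h2 hγ).trans hC) (sq_nonneg P₁)
  have c3 : γ * 3 * K ^ 2 ≤ D * K ^ 2 :=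
    mul_le_mul_of_nonneg_right ((mul_le_mul_of_nonneg_left h3 hγ).trans hD) (sq_nonneg K)
  linarith only [b, c1, c2, c3]

end Vale.Agent.P100.Wt.Split
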